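import Vale.Agent.P366Q.F.Defs
import Vale.Agent.P366Q.J.Defs
import Vale.Agent.P366M.Int
import Vale.Agent.P366M.Fl
import Vale.Agent.P366Y.C.Gb

/-!
# P366Q, block F: jets in the charts
-/

open MeasureTheory Metric Filter Topology Set Matrix
open scoped ContDiff ENNReal
open Vale.Agent.P366 Vale.Agent.P366.Stmt Vale.Agent.P366Z Vale.Agent.P366Y

noncomputable section

namespace Vale.Agent.P366M.Y.F

variable {n : ℕ} {M : Type} [Mfe n M] {e : Ch n M} {x : M} {y : E n} {g : Fld n M}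
  {f u v : M → ℝ}

theorem rC_eq (e : Ch n M) (w : M → Vc n) (y : E n) : rC e w y = (J e y)ᵀ *ᵥ w (e.symm y) := rfl

theorem tC_eq (e : Ch n M) (y : E n) (q : Vc n) : tC e y q = ((J e y)⁻¹)ᵀ *ᵥ q := rfl

theorem rC_pt (w : M → Vc n) (x : M) : rC (ch x) w (pt x) = w x := by
  rw [rC_eq, J_pt, symm_pt, transpose_one, one_mulVec]

theorem tC_pt (x : M) (q : Vc n) : tC (ch x) (pt x) q = q := by
  rw [tC_eq, J_pt, inv_one, transpose_one, one_mulVec]

theorem repU_pt' (T : Fld n M) (x : M) : repU (ch x) T (pt x) = T x := by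
  have := mat_repU (ch x) T (pt x)
  rwa [J_pt, symm_pt, inv_one, transpose_one, Matrix.one_mul, Matrix.mul_one] at this

theorem tC_rC (he : e ∈ At M) (w : M → Vc n) (y : E n) : tC e y (rC e w y) = w (e.symm y) := by
  rw [tC_eq, rC_eq, mulVec_mulVec, ← transpose_mul, J_mul_inv he, transpose_one, one_mulVec]

theorem rC_D1 (he : e ∈ At M) (hv : ∀ x, DAt v x) : rC e (D1 v) = P366Y.D1 (loc e v) :=
  funext fun _ => funext fun i => (pd_rep he (hv _) i).symm

theorem d2_rep (he : e ∈ At M) (hv : CD 2 v) (y : E n) :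
    P366Y.D2 (loc e v) y = rep e (D2 v) y + cg e y (rC e (D1 v) y) := by
  rw [rC_D1 he (hv.differentiable (by simp)), D2, rep_hess bg_met he hv]
  funext i j
  simp only [Stmt.hess, cg, P366Y.D2, P366Y.D1, Pi.add_apply, sub_add_cancel]

theorem pr2_add (a H K : Mx n) : pr2 a (H + K) = pr2 a H + pr2 a K := by
  simp only [pr2, Pi.add_apply, mul_add, Finset.sum_add_distrib]

theorem pr2_rep (he : e ∈ At M) (a T : Fld n M) (y : E n) :
    pr2 (repU e a y) (rep e T y) = pr2 (a (e.symm y)) (T (e.symm y)) := pair_rep he a T y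

theorem sq_rep (he : e ∈ At M) (g : Fld n M) (w : M → Vc n) (y : E n) :
    P366Y.sq (rep e g) y (rC e w y) = sq g (e.symm y) (w (e.symm y)) := by
  simp only [P366Y.sq, up_rep]
  exact quadU_rep he (fun x i j => up g i j x) (fun k x => w x k) (fun k x => w x k) y

theorem rs_rep (he : e ∈ At M) (g : Fld n M) (w : M → Vc n) (y : E n) (i : Fin n) :
    P366Y.rs (rep e g) y (rC e w y) i = repV e (fun i p => rs g p (w p) i) i y := by
  simp only [P366Y.rs, up_rep]
  exact (congrFun (congrFun (raise_rep he (fun x i j => up g i j x) fun k x => w x k) i) y).symm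

theorem rep_gb (he : e ∈ At M) (g : Fld n M) (w : M → ℝ) (hf : ∀ x, DAt f x) :
    rep e (gb g w f) = P366Y.gb (rep e g) (loc e w) (loc e f) := by
  have : gb g w f = fun x i j => g x i j + w x ^ 2 * (pd i f x * pd j f x) := by
    funext x i j
    rw [gb, mul_assoc]
  rw [this, rep_add, rep_smul e fun x => w x ^ 2,
    rep_prod e (fun i => pd i f) fun i => pd i f, repC_pd he hf]
  funext y i j
  rw [P366Y.gb, mul_assoc]
  rfl

theorem met_gb (hg : Met g) {w : M → ℝ} (hw : Smooth w) (hf : Smooth f) : Met (gb g w f) where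
  sm e he := by
    rw [rep_gb he g w hf.diff]
    exact (P366Y.C.gb_ n _ _ _ (hg.rep he) (hw.lc he) (hf.lc he)).1.sm
  sy x i j := by rw [gb, gb, hg.sy]; ring
  pos x := by
    have := (P366Y.C.gb_ n _ _ _ (hg.loc' x) (hw.lc (ch_mem x)) (hf.lc (ch_mem x))).1.pos (pt x)
    rwa [show P366Y.C.gb (rep (ch x) g) (loc (ch x) w) (loc (ch x) f) = _ from
      (rep_gb (ch_mem x) g w hf.diff).symm, mat_pt] at this

/-- a smooth function with a prescribed jet -/
theorem exists_jet (he : e ∈ At M) (y : E n) (z : ℝ) (q : Vc n) :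
    ∃ v : M → ℝ, Smooth v ∧ v (e.symm y) = z ∧ rC e (D1 v) y = q := by
  obtain ⟨χ, s, -, hs, -, h1⟩ := exists_cut (isCompact_singleton (x := e.symm y)) e.open_source
    (singleton_subset_iff.2 (symm_mem he y))
  have h2 := h1 _ rfl
  have sl : ContDiff ℝ ∞ fun w : E n => z + ∑ i, q i * (w i - y i) :=
    contDiff_const.add (ContDiff.sum fun i _ => contDiff_const.mul
      ((P366Z.contDiff_coord i).sub contDiff_const))
  have el : loc e (fun p => χ p * (z + ∑ i, q i * (e p i - y i))) =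
      fun w => loc e χ w * (z + ∑ i, q i * (w i - y i)) :=
    funext fun w => by simp only [loc, right_inv he]
  have sv : Smooth fun p => χ p * (z + ∑ i, q i * (e p i - y i)) := by
    refine cd_of_cAt le_rfl fun p => ?_
    by_cases hp : p ∈ e.source
    · rw [← e.left_inv hp]
      exact cAt_of_loc le_rfl he (el ▸ ((s e he).mul sl).contDiffAt)
    · refine (cAt_const (c := (0 : ℝ))).congr_of_eventuallyEq ?_
      filter_upwards [notMem_tsupport_iff_eventuallyEq.1 fun h => hp (hs h)] with w hw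
      rw [hw, Pi.zero_apply, zero_mul]
  refine ⟨_, sv, ?_, ?_⟩
  · simp only [h2.eq_of_nhds, right_inv he, sub_self, mul_zero, Finset.sum_const_zero, add_zero,
      one_mul]
  · rw [rC_D1 he sv.diff, el]
    funext k
    have : (fun w => loc e χ w * (z + ∑ i, q i * (w i - y i))) =ᶠ[𝓝 y]
        fun w : E n => z + ∑ i, q i * (w i - y i) :=
      (loc_congr' he h2).mono fun w hw => by
        beta_reduce
        rw [hw, loc, one_mul]
    have d : ∀ i, DifferentiableAt ℝ (fun w : E n => q i * (w i - y i)) y := fun i =>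
      (((P366Z.contDiff_coord (m := 1) i).differentiable (by simp) y).sub_const _).const_mul _
    rw [P366Y.D1, P366Z.pd_congr this, P366Z.pd_const_add, P366Z.pd_sum _ fun i _ => d i]
    simp [P366Z.pd_const_mul, P366Z.pd_sub_const, P366Z.pd_coord]

/-! ### far out -/

theorem far_ball (hx : R0 M + 1 ≤ ‖px x‖) (hy : y ∈ ball (pt x) 1) :
    px ((ch x).symm y) = y ∧ ‖px x‖ - 1 < ‖y‖ ∧ J (ch x) y = 1 ∧
      rep (ch x) bg =ᶠ[𝓝 y] P366Z.eu n := by
  obtain ⟨j, w, rfl, hw⟩ := far_rep (x := x) (by linarith)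
  rw [hw] at hx ⊢
  have h0 : R0 M ≤ ‖w‖ := by linarith
  rw [pt_ye h0] at hy
  have h1 := norm_ge_of_ball hy
  have h5 : y ∈ ball w 5 := ball_subset_ball (by norm_num) hy
  refine ⟨by rw [symm_ye h0 h5, px_ye' (by linarith)], h1,
    J_of_ev (symm_ev' h0 h5) (by linarith), ?_⟩
  filter_upwards [isOpen_ball.mem_nhds h5, ev_lt_norm (show R0 M < ‖y‖ by linarith)] with z h6 h7
  rw [rep_ye_ball h0 h6 h7.le, bg_far (by rw [px_ye' h7.le]; exact h7.le)]
  rfl

theorem cg_far (hx : R0 M + 1 ≤ ‖px x‖) (hy : y ∈ ball (pt x) 1) (p : Vc n) :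
    cg (ch x) y p = 0 := by
  funext i j
  simp [cg, P366Z.chr_of_ev (far_ball hx hy).2.2.2, P366Z.chr_eu]

theorem sm_chr (he : e ∈ At M) (k i j : Fin n) : Stmt.Smooth (Stmt.chr (rep e bg) k i j) :=
  (bg_met.rep he).sm_chr k i j

/-- the Christoffel symbols of the background metric are bounded -/
theorem cg_bd (M : Type) [Mfe n M] : ∃ K, 0 ≤ K ∧ ∀ x : M, ∀ y ∈ ball (pt x) 1, ∀ p,
    ‖cg (ch x) y p‖ ≤ K * ‖p‖ := by
  obtain ⟨K, K0, hK⟩ := bdd_ch (M := M) (F := fun e y k i j => Stmt.chr (rep e bg) k i j y)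
    (fun e he => continuous_pi fun k => continuous_pi fun i => continuous_pi fun j =>
      (sm_chr he k i j).cont) (R0 M + 1) 1
  refine ⟨n * K, by positivity, fun x y hy p => ?_⟩
  rcases le_total ‖px x‖ (R0 M + 1) with h | h
  · refine (pi_norm_le_iff_of_nonneg (by positivity)).2 fun i =>
      (pi_norm_le_iff_of_nonneg (by positivity)).2 fun j => ?_
    rw [mul_assoc]
    refine (Finset.abs_sum_le_sum_abs _ _).trans ((Finset.sum_le_card_nsmul _ _ (K * ‖p‖)
      fun k _ => ?_).trans_eq (by simp))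
    rw [abs_mul]
    have b : ∀ T : Fin n → Mx n, |T k i j| ≤ ‖T‖ := fun T => (norm_le_pi_norm (T k i) j).trans
      ((norm_le_pi_norm (T k) i).trans (norm_le_pi_norm T k))
    exact mul_le_mul ((b fun k i j => Stmt.chr (rep (ch x) bg) k i j y).trans
      (hK x h y (ball_subset_closedBall hy))) (norm_le_pi_norm p k) (abs_nonneg _) K0.le
  · rw [cg_far h hy, norm_zero]
    positivity

theorem d2_far (hx : R0 M < ‖px x‖) (v : M → ℝ) (i j : Fin n) : D2 v x i j = pd2 i j v x := by
  rw [D2, hess_of_ev (bg_ev hx), hess_eu hx]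

theorem pr2_eu (hx : R0 M < ‖px x‖) (v : M → ℝ) : pr2 (eu n x) (D2 v x) = lap (eu n) v x := by
  rw [lap_eu hx]
  simp [pr2, eu, d2_far hx]

theorem d2_neg (v : M → ℝ) (a : Mx n) (x : M) :
    pr2 a (D2 (fun y => -v y) x) = -pr2 a (D2 v x) := by
  simp only [pr2, D2, hess_neg, mul_neg, Finset.sum_neg_distrib]

theorem d2_lin {w : M → ℝ} (hv : CAt 2 v x) (hw : CAt 2 w x) (t : ℝ) (a : Mx n) :
    pr2 a (D2 (fun y => v y - t * w y) x) = pr2 a (D2 v x) - t * pr2 a (D2 w x) := by
  simp only [pr2, D2, hess_sub hv (cAt_const.mul hw), hess_const_mul, mul_sub,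
    Finset.sum_sub_distrib, Finset.mul_sum, mul_left_comm]

theorem d2_mul {U w : M → ℝ} (hU : CAt 2 U x) (hw : CAt 2 w x) (i j : Fin n) :
    D2 (fun y => U y * w y) x i j = U x * D2 w x i j + pd i U x * pd j w x + pd j U x * pd i w x +
      w x * D2 U x i j := by
  simp only [D2, hess_mul hU hw]
  ring

end Vale.Agent.P366M.Y.F
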