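import Vale.Agent.P366Q.F.Bas
import Vale.Agent.P366Y.F.Jet
import Vale.Agent.P366Y.F.Chg
import Vale.Agent.P366Y.F.Exp1
import Vale.Agent.P366Y.C.All

/-!
# P366Q, block F: rows JET, CHG, FARL
-/

open MeasureTheory Metric Filter Topology Set
open scoped ContDiff ENNReal
open Vale.Agent.P366 hiding E
open Vale.Agent.P366.Stmt Vale.Agent.P366Z Vale.Agent.P366Y
open Vale.Agent.P366Y.F (qd Tr La Wb)
open Vale.Agent.P366Y.F.JetH (Q1 Q2)

noncomputable section

namespace Vale.Agent.P366M.Y.F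

/-- **row JET** -/
theorem jet : JET := by
  intro n M _ m g U φ θ hg hU h0 hφ hθ e he
  obtain ⟨sa, B, sB, hB⟩ := P366Y.F.jet n m _ _ φ θ (hg.rep he) (hU.lc he) (fun _ => h0 _) hφ hθ
  refine ⟨sa, ?_⟩
  have hx : ContDiff ℝ ∞ fun w : E n × (Vc n × Mx n × (Fin m → ℝ)) × ℝ => w.1 := contDiff_fst
  have hp : ContDiff ℝ ∞ fun w : E n × (Vc n × Mx n × (Fin m → ℝ)) × ℝ => w.2.1.1 :=
    contDiff_snd.fst.fst
  have hc := fun k i j => P366Y.F.JetH.cmp (sm_chr he k i j) hx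
  have h1 : ContDiff ℝ ∞ fun w : E n × (Vc n × Mx n × (Fin m → ℝ)) × ℝ => cg e w.1 w.2.1.1 :=
    contDiff_pi.2 fun i => contDiff_pi.2 fun j => ContDiff.sum fun k _ =>
      (hc k i j).mul (contDiff_pi.1 hp k)
  have q1 : Q2 fun (w : E n × (Vc n × Mx n × (Fin m → ℝ)) × ℝ) q => P366Y.F.bv (rep e g) (loc e U)
      φ θ (w.1, (w.2.1.1, w.2.1.2.1 + cg e w.1 w.2.1.1, w.2.1.2.2), w.2.2) q :=
    ⟨_, sB.comp (hx.prodMk ((hp.prodMk ((contDiff_snd.fst.snd.fst.add h1).prodMk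
      contDiff_snd.fst.snd.snd)).prodMk contDiff_snd.snd)), fun w q => hB _ q⟩
  have q2 : Q1 fun (w : E n × (Vc n × Mx n × (Fin m → ℝ)) × ℝ) q =>
      pr2 (av g U φ e (w.1, w.2.1.1, w.2.2)) (cg e w.1 q) :=
    Q1.sum fun i => .sum fun j => (Q1.sum fun k => (Q1.coord k).smul (hc k i j)).smul
      (contDiff_pi.1 (contDiff_pi.1 (sa.comp (hx.prodMk (hp.prodMk contDiff_snd.snd))) i) j)
  obtain ⟨B', a, b⟩ := q1.add (q2.smul (contDiff_const (c := (-1 : ℝ)))).two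
  exact ⟨B', a, fun w q => by rw [b, bv]; ring⟩

variable {n : ℕ} {M : Type} [Mfe n M] {e : Ch n M} {g : Fld n M} {U f u : M → ℝ} {φ : ℝ → ℝ}

theorem nu_rep (he : e ∈ At M) (hg : Met g) (hφ : ContDiff ℝ ∞ φ) (hf : Smooth f) (hu : Smooth u)
    (Λ : M → ℝ) (y : E n) :
    P366Y.F.nu (rep e g) φ (loc e f) (loc e Λ) (loc e u) y = nu g φ f Λ u (e.symm y) := by
  have m := met_gb hg (hφ.compM hu) hf
  rw [nu, ← lap_rep m he (hu.c2 _), ← scal_rep m he, rep_gb he g _ hf.diff]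
  rfl

theorem aa_eq (G : Stmt.Field n) (φ : ℝ → ℝ) (y : E n) (p : Vc n) (z : ℝ) (i j : Fin n) :
    P366Y.F.aa G φ y p z i j =
      (4 * gam n + 2 * Tr z * φ z * deriv φ z * P366Y.sq G y p / (1 + φ z ^ 2 * P366Y.sq G y p)) *
        Stmt.up G i j y - (4 * gam n * φ z ^ 2 + 2 * Tr z * φ z * deriv φ z) /
          (1 + φ z ^ 2 * P366Y.sq G y p) * (P366Y.rs G y p i * P366Y.rs G y p j) := by
  rw [P366Y.F.aa]
  ring

theorem av_rep (he : e ∈ At M) (g : Fld n M) (U : M → ℝ) (φ : ℝ → ℝ) (w : M → Vc n) (y : E n)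
    (z : ℝ) : repU e (fun p => av g U φ (ch p) (pt p, w p, z)) y = av g U φ e (y, rC e w y, z) := by
  obtain ⟨c, d, h⟩ : ∃ c d : ℝ → ℝ → ℝ, ∀ (G : Stmt.Field n) (V : E n → ℝ) (y : E n) p i j,
      P366Y.F.av G V φ (y, p, z) i j = c (V y) (P366Y.sq G y p) * Stmt.up G i j y -
        d (V y) (P366Y.sq G y p) * (P366Y.rs G y p i * P366Y.rs G y p j) :=
    ⟨fun a s => a ^ (2 * bb n) / (4 * gam n) * (4 * gam n + 2 * Tr (1 + z / a) * φ (1 + z / a) *
      deriv φ (1 + z / a) * s / (1 + φ (1 + z / a) ^ 2 * s)), fun a s => a ^ (2 * bb n) /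
        (4 * gam n) * ((4 * gam n * φ (1 + z / a) ^ 2 + 2 * Tr (1 + z / a) * φ (1 + z / a) *
          deriv φ (1 + z / a)) / (1 + φ (1 + z / a) ^ 2 * s)), fun G V y p i j => by
      rw [P366Y.F.av, aa_eq, P366Y.F.ka]
      ring⟩
  have e1 : (fun p => av g U φ (ch p) (pt p, w p, z)) = fun p i j =>
      c (U p) (sq g p (w p)) * up g i j p -
        d (U p) (sq g p (w p)) * (rs g p (w p) i * rs g p (w p) j) := by
    funext p i j
    rw [av, h, J.sq_pt, J.rs_pt, up_pt, loc_pt]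
  rw [e1, repU_sub, repU_smul e fun p => c (U p) (sq g p (w p)),
    repU_smul e fun p => d (U p) (sq g p (w p)),
    repU_prod e (fun i p => rs g p (w p) i) fun i p => rs g p (w p) i]
  funext i j
  rw [av, h, sq_rep he, rs_rep he, rs_rep he, up_rep]
  rfl

theorem chg_old : P366Y.F.CHG := 
  P366Y.F.chg_of (P366Y.F.exp1_of P366Y.C.gb_ P366Y.C.rb_)

/-- **row CHG** -/
theorem chg : CHG := by
  intro n M _ m g U φ θ f lm hg hU h0 hφ φ0 hf
  have key : ∀ e ∈ At M, ∀ y v, Smooth v →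
      pr2 (av g U φ e (y, rC e (D1 f) y, v (e.symm y))) (rep e (D2 v) y) -
        bv g U φ θ e (y, (rC e (D1 f) y, rep e (D2 f) y, lm (e.symm y)), v (e.symm y))
          (rC e (D1 v) y) = ka n U (e.symm y) * U (e.symm y) * nu g φ f
        (fun y => La θ (lm y) (1 + v y / U y)) (fun y => 1 + v y / U y) (e.symm y) := by
    intro e he y v hv
    have su : Smooth fun y => 1 + v y / U y := cd_const.add (CD.div hv hU fun x => (h0 x).ne')
    have h := chg_old n m _ _ φ θ _ _ (loc e lm) (hg.rep he) (hU.lc he) (fun _ => h0 _) hφ φ0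
      (hf.lc he) (hv.lc he) y
    rw [d2_rep he hv.two, d2_rep he hf.two, ← rC_D1 he hv.diff, ← rC_D1 he hf.diff, pr2_add] at h
    rw [← nu_rep he hg hφ hf su]
    refine Eq.trans ?_ h
    rw [bv]
    simp only [av, loc]
    ring
  have k0 : ∀ v, Smooth v → ∀ x, pr2 (av g U φ (ch x) (pt x, D1 f x, v x)) (D2 v x) -
      bv g U φ θ (ch x) (pt x, (D1 f x, D2 f x, lm x), v x) (D1 v x) = ka n U x * U x *
        nu g φ f (fun y => La θ (lm y) (1 + v y / U y)) (fun y => 1 + v y / U y) x :=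
    fun v hv x => by simpa only [rC_pt, rep_pt, symm_pt] using key _ (ch_mem x) (pt x) v hv
  refine ⟨k0, fun e he y z => ⟨av_rep he g U φ _ y z, fun q => ?_⟩⟩
  obtain ⟨v, hv, rfl, rfl⟩ := exists_jet he y z q
  have h1 := key e he y v hv
  rw [← k0 v hv, ← av_rep he, pr2_rep he] at h1
  rw [tC_rC he]
  linarith

/-- **row FARL** -/
theorem farl : FARL := by
  intro n M _ X φ f Λ u hX hu hf0 x hx
  have hn := hX.dim
  have n0 : 0 < n := by omega
  have U0 := J.U0 hX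
  have hR : X.R + 6 < ‖px x‖ := by linarith [hX.Rρ]
  have hx0 := hX.flat.far hx
  have ev : f =ᶠ[𝓝 x] fun _ => 0 := (ev_lt_px hR).mono fun y hy => hf0 y hy.le
  have evp : ∀ i, pd i f =ᶠ[𝓝 x] fun _ => 0 := fun i =>
    (pd_congr_ev ev i).trans (Eventually.of_forall fun y => pd_const 0 i y)
  have eg : gb X.g (fun y => φ (u y)) f =ᶠ[𝓝 x] X.g := by
    filter_upwards [eventually_all.2 evp] with y hy
    funext i j
    have := hy i
    simp only [gb, this, mul_zero, zero_mul, add_zero]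
  have l0 : lap (eu n) X.U x = 0 := by
    rw [← hX.flat.lap_eq' n0 hX.met hX.smU hx]; exact hX.harm x hx
  have s0 : scal X.g x = 0 := by
    have := P366Z.Y.scf n _ _ (fun _ => 1) (pt x) hn (hX.met.loc' x) (hX.smU.lc (ch_mem x))
      (fun _ => U0 _) contDiff_const
    rw [← rep_cf] at this
    unfold P366Z.cl at this
    have a1 : P366Z.lap (rep (ch x) X.g₀) (loc (ch x) X.U) (pt x) = 0 := hX.harm x hx
    have a2 : Stmt.scal (rep (ch x) X.g₀) (pt x) = 0 := hX.flat.scal_eq' n0 hX.met hx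
    simp only [mul_one, P366Z.lap_const, mul_zero, zero_add, a1, a2, zero_mul, add_zero] at this
    exact this
  have s1 : scal (gb X.g (fun y => φ (u y)) f) x = 0 := (scal_of_ev eg).trans s0
  refine ⟨(pr2_eu hx0 _).trans l0, funext fun i => (evp i).eq_of_nhds, ?_, s0, s1, ?_⟩
  · funext i j
    rw [D2, hess_congr ev, hess_const]
    rfl
  · have hu1 : Smooth fun y => u y - 1 := CD.sub hu cd_const
    have w1 : wl bg X.U (fun y => u y - 1) x = wl (eu n) X.U u x := by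
      rw [← wl_of_ev (bg_ev hx0)]
      exact wl_add_const (-1)
    have l1 : lap X.g u x = X.U x ^ (-(n * bb n)) * wl (eu n) X.U u x := by
      rw [← hX.flat.wl_eq' n0 hX.met hX.smU hu hx]
      exact hX.met.lap_cf hn U0 u
    have g0 : gam n ≠ 0 := by linarith [one_lt_gam hn]
    have hx1 := (U0 x).ne'
    have r0 := (Real.rpow_pos_of_pos (U0 x) (2 * bb n)).ne'
    have r1 : X.U x ^ (-(n * bb n)) = (X.U x ^ 2 * X.U x ^ (2 * bb n))⁻¹ := by
      rw [n_bb hn, Real.rpow_neg (U0 x).le, Real.rpow_add (U0 x), Real.rpow_two]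
    rw [pr2_eu hx0, ← lap_of_ev (bg_ev hx0), bg_met.lap_mul_wl (hX.smU.c2 x) (hu1.c2 x) hx1,
      lap_of_ev (bg_ev hx0), l0, w1]
    unfold nu ka
    rw [s1, lap_of_ev eg, l1, r1]
    field_simp
    ring

end Vale.Agent.P366M.Y.F
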