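import Vale.Agent.P366Q.F.Bas
import Vale.Agent.P366Q.T.Ho
import Vale.Agent.P366Y.F.Cmp
import Vale.Agent.P366Y.F.Nq2
import Vale.Agent.P366Y.F.Uex
import Vale.Agent.P366Y.T.Cac
import Vale.Agent.P366Y.T.Dgo

/-!
# P366Q, block F: compositions, and the Hölder estimate under natural growth
-/

open MeasureTheory Metric Filter Topology Set
open scoped ContDiff ENNReal
open Vale.Agent.P366 Vale.Agent.P366.Stmt Vale.Agent.P366Z Vale.Agent.P366Y

noncomputable section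

namespace Vale.Agent.P366M.Y.F

variable {n : ℕ} {V V' : Type} [NormedAddCommGroup V] [NormedAddCommGroup V']

theorem low {α β A : ℝ} {f : E n → V} {s : Set (E n)} (h : HoB β A f s) (h0 : 0 ≤ α)
    (h1 : α ≤ β) : HoB α (2 * |A|) f s := by
  have A0 := abs_nonneg A
  have A1 := le_abs_self A
  refine ⟨fun x hx => by linarith [h.1 x hx], fun x hx y hy => ?_⟩
  rcases le_total ‖x - y‖ 1 with c | c
  · exact (h.2 x hx y hy).trans (mul_le_mul (by linarith)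
      (Real.rpow_le_rpow_of_exponent_ge' (norm_nonneg _) c h0 h1) (by positivity) (by positivity))
  · have := mul_le_mul_of_nonneg_left (Real.one_le_rpow c h0) (show 0 ≤ 2 * |A| by positivity)
    linarith [norm_sub_le (f x) (f y), h.1 x hx, h.1 y hy]

/-- compositions with functions of class `C¹` in the charts -/
theorem cmp {M : Type} [Mfe n M] [NormedSpace ℝ V] [FiniteDimensional ℝ V] [NormedSpace ℝ V']
    (Φ : Ch n M → E n × V → V') (hΦ : ∀ x, ContDiff ℝ 1 (Φ (ch x))) (R N : ℝ) : ∃ Λ ≥ (0 : ℝ),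
    (∀ x : M, ‖px x‖ ≤ R → ∀ y ∈ ball (pt x) 1, ∀ w w', ‖w‖ ≤ N → ‖w'‖ ≤ N →
      ‖Φ (ch x) (y, w)‖ ≤ Λ ∧ ‖fderiv ℝ (Φ (ch x)) (y, w)‖ ≤ Λ ∧
        ‖Φ (ch x) (y, w) - Φ (ch x) (y, w')‖ ≤ Λ * ‖w - w'‖) ∧
    ∀ α ∈ Ioo (0 : ℝ) 1, ∀ (Y : M → E n → V) (c : V'), (∀ x, HoB α N (Y x) (ball (pt x) 1)) →
      (∀ x, R ≤ ‖px x‖ → ∀ y ∈ ball (pt x) 1, Φ (ch x) (y, Y x y) = c) →
      ∀ x, HoB α (Λ + ‖c‖) (fun y => Φ (ch x) (y, Y x y)) (ball (pt x) 1) := by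
  obtain ⟨C, hC⟩ := pt_bd M R
  obtain ⟨L, hL⟩ := unif (M := M) (P := fun e L => 0 ≤ L ∧ ∀ y y' w w', ‖y‖ ≤ C + 1 →
      ‖y'‖ ≤ C + 1 → ‖w‖ ≤ N → ‖w'‖ ≤ N → ‖Φ e (y, w)‖ ≤ L ∧ ‖fderiv ℝ (Φ e) (y, w)‖ ≤ L ∧
        ‖Φ e (y, w) - Φ e (y', w')‖ ≤ L * (‖y - y'‖ + ‖w - w'‖))
    (fun e a b hab h => ⟨h.1.trans hab, fun y y' w w' k1 k2 k3 k4 =>
      let ⟨a1, a2, a3⟩ := h.2 y y' w w' k1 k2 k3 k4
      ⟨a1.trans hab, a2.trans hab, a3.trans (by gcongr)⟩⟩) fun x =>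
    let ⟨L, L0, h, _⟩ := P366Y.F.cmp n V V' _ C N (hΦ x)
    ⟨L, L0, h⟩
  have L0 : 0 ≤ L := (hL (Classical.arbitrary M)).1
  have a1 := mul_nonneg L0 (abs_nonneg N)
  have a2 : L ≤ L * (8 + |N|) := by linarith
  have nb : ∀ x : M, ‖px x‖ ≤ R → ∀ y ∈ ball (pt x) 1, ‖y‖ ≤ C + 1 := fun x hx y hy => by
    linarith [norm_le_of_ball hy, hC x hx]
  refine ⟨L * (8 + |N|), by positivity, fun x hx y hy w w' k1 k2 => ?_, fun α hα Y c hY hc x => ?_⟩
  · obtain ⟨b1, b2, b3⟩ := (hL x).2 y y w w' (nb x hx y hy) (nb x hx y hy) k1 k2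
    rw [sub_self, norm_zero, zero_add] at b3
    exact ⟨b1.trans a2, b2.trans a2, b3.trans (by gcongr)⟩
  rcases le_total R ‖px x‖ with hx | hx
  · exact (hoB_of_const (hc x hx)).mono (le_add_of_nonneg_left (by positivity))
  refine HoB.mono ⟨fun y hy => ((hL x).2 y y _ _ (nb x hx y hy) (nb x hx y hy) ((hY x).1 y hy)
    ((hY x).1 y hy)).1.trans a2, fun y hy z hz => ?_⟩ (le_add_of_nonneg_right (norm_nonneg c))
  refine ((hL x).2 y z _ _ (nb x hx y hy) (nb x hx z hz) ((hY x).1 y hy)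
    ((hY x).1 z hz)).2.2.trans ?_
  rw [mul_assoc, add_mul]
  exact mul_le_mul_of_nonneg_left (add_le_add (le_rpow_eight (one4 x hy) (one4 x hz) hα.1.le
    hα.2.le) (((hY x).2 y hy z hz).trans (mul_le_mul_of_nonneg_right (le_abs_self N)
      (rp0 _ _ _)))) L0

theorem pr2_abs {Λ : ℝ} {a : Mx n} (h : El Λ a) (H : Mx n) : |pr2 a H| ≤ |Λ| * (n * (n * ‖H‖)) := by
  rw [mul_left_comm, mul_left_comm |Λ|]
  refine P366Y.F.Nq2H.sum_le fun i => P366Y.F.Nq2H.sum_le fun j => ?_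
  rw [abs_mul]
  exact mul_le_mul ((h.2.1 i j).trans (le_abs_self _)) (abs_le_norm2 H i j) (abs_nonneg _)
    (abs_nonneg _)

/-- **row NHO** -/
theorem nho : NHO := by
  intro n M _ Λ K hn
  obtain ⟨G, G0, hG⟩ := cg_bd M
  obtain ⟨L, hL⟩ := exists_geo M
  obtain ⟨γ, C, C0, hC⟩ := cac2 n (|Λ| + |Λ| * (n * (n * G))) K
  obtain ⟨θ, hθ, C', C1, hD⟩ := dgo n γ hn
  refine ⟨θ, hθ, L * (2 * L / (1 / 2) * (C' * (K + C / 1 * 1) + K)), fun a v ha hv hK h x => ?_⟩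
  refine ((hm_of_loc hL hθ.2.le hθ.1.le one_half_pos (by norm_num) fun x => ?_).loc hL hθ.2.le
    hθ.1.le x).sub (one4 x)
  have K0 : 0 ≤ K := (abs_nonneg _).trans (hK x)
  have a1 : 0 ≤ C' * (K + C / 1 * 1) := by positivity
  have a2 : 0 ≤ |Λ| * (n * (n * G)) := by positivity
  have he := ch_mem x
  have cv := hv _ he
  have k : ∀ y ∈ ball (pt x) 1, El (|Λ| + |Λ| * (n * (n * G))) (a x y) ∧
      (∀ i j k, |Stmt.pd k (fun z => a x z i j) y| ≤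
        (|Λ| + |Λ| * (n * (n * G))) * (1 + ‖P366Y.D1 (loc (ch x) v) y‖)) ∧
      |pr2 (a x y) (P366Y.D2 (loc (ch x) v) y)| ≤
        (|Λ| + |Λ| * (n * (n * G))) * (1 + e2 (P366Y.D1 (loc (ch x) v) y)) := fun y hy => by
    obtain ⟨b1, b2, b3⟩ := h x y hy
    have b4 := le_abs_self Λ
    rw [d2_rep he hv, pr2_add, ← rC_D1 he (hv.differentiable (by simp))]
    generalize rC (ch x) (D1 v) y = p at b2 b3 ⊢
    have b5 := e2_nonneg p
    have b6 := norm_nonneg p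
    refine ⟨el_mono b1 (by linarith), fun i j k => (b2 i j k).trans
      (mul_le_mul_of_nonneg_right (by linarith) (by linarith)), (abs_add_le _ _).trans ?_⟩
    rw [add_mul]
    refine add_le_add (b3.trans (mul_le_mul_of_nonneg_right b4 (by linarith)))
      ((pr2_abs b1 _).trans ?_)
    have b7 : ‖cg (ch x) y p‖ ≤ G * (1 + e2 p) := (hG x y hy p).trans
      (mul_le_mul_of_nonneg_left (by nlinarith [le_e2 p]) G0)
    calc |Λ| * (n * (n * ‖cg (ch x) y p‖)) ≤ |Λ| * (n * (n * (G * (1 + e2 p)))) := by gcongr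
      _ = _ := by ring
  have e1 : ∀ z, P366Y.D1 (fun y => -loc (ch x) v y) z = -P366Y.D1 (loc (ch x) v) z :=
    fun z => funext fun i => P366Z.pd_neg i
  refine ⟨fun y _ => (hK _).trans (by linarith), fun y hy z hz => ?_⟩
  have := hD (C / 1) K 1 _ (pt x) one_pos (by positivity) (cv.of_le (by norm_num))
    (fun z _ => hK _)
    (hC (a x) _ (pt x) 1 one_pos (ha x) cv fun z hz => ⟨(k z hz).1, hK _,
      by simpa using (k z hz).2.1, by simpa using neg_le_of_abs_le (k z hz).2.2⟩)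
    (hC (a x) _ (pt x) 1 one_pos (ha x) cv.neg fun z hz => ⟨(k z hz).1, (abs_neg _).trans_le (hK _),
      by simpa [e1] using (k z hz).2.1, by
        simpa [e1, P366Y.F.UexH.d2_neg, e2] using le_of_abs_le (k z hz).2.2⟩) y hy z hz
  rw [div_one ‖y - z‖] at this
  exact this.trans (mul_le_mul_of_nonneg_right (by linarith) (rp0 _ _ _))

end Vale.Agent.P366M.Y.F
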