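import Vale.Agent.P366Q.If

/-!
# P366Q, block F: the existence of the conformal factor on a manifold (definitions, statements)

`qd Tr La Wb aa av bv` are those of `P366Y.F`; they are used in the charts.
-/

open MeasureTheory Metric Filter Topology Set
open scoped ContDiff ENNReal
open Vale.Agent.P366 Vale.Agent.P366.Stmt Vale.Agent.P366Z Vale.Agent.P366Y
open Vale.Agent.P366Y.F (qd Tr La Wb)

noncomputable section

namespace Vale.Agent.P366M.Y.F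

variable {n : ℕ} {M : Type} [Mfe n M]

/-! ### nonlocal quasilinear equations with natural growth -/

/-- nonlocal data, in the charts -/
structure Nl {W : Type} [NormedAddCommGroup W] [NormedSpace ℝ W] (ρ β A : ℝ)
    (w : Ch n M → (M → ℝ) → E n → W) : Prop where
  sm : ∀ h, Continuous h → ∀ x, ContDiff ℝ ∞ (w (ch x) h)
  ho : ∀ h, Continuous h → ∀ x, HoB β A (w (ch x) h) (ball (pt x) 1)
  ct : Ct ρ fun h x => w (ch x) h (pt x)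

/-- the data of a problem, in the charts -/
structure Pb (n : ℕ) (M : Type) [Mfe n M] (W : Type) where
  ρ : ℝ
  β : ℝ
  Λ : ℝ
  w₁ : Ch n M → (M → ℝ) → E n → Vc n
  w₂ : Ch n M → (M → ℝ) → E n → W
  a : Ch n M → E n × Vc n × ℝ → Mx n
  b : Ch n M → E n × W × ℝ → ℝ × Vc n × Mx n

namespace Pb

variable {W : Type} (Q : Pb n M W)

/-- the principal part at the value `z` -/
def A (h : M → ℝ) (x : M) (z : ℝ) : Mx n := Q.a (ch x) (pt x, Q.w₁ (ch x) h (pt x), z)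

/-- the right hand side at the value `z` and the differential `q` -/
def B (h : M → ℝ) (x : M) (z : ℝ) (q : Vc n) : ℝ :=
  qd (Q.b (ch x) (pt x, Q.w₂ (ch x) h (pt x), z)) q

/-- the principal part -/
def aj (j : M → ℝ × Vc n) (x : M) : Mx n := Q.A (fun y => (j y).1) x (j x).1

/-- the right hand side -/
def bj (j : M → ℝ × Vc n) (x : M) : ℝ := Q.B (fun y => (j y).1) x (j x).1 (j x).2

/-- the potential of the homotopy -/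
def c (l : ℝ) (x : M) : ℝ := l * rc Q.ρ x

/-- the equation; `σ` is the parameter of the homotopy -/
def Eqn (l σ : ℝ) (v : M → ℝ) : Prop :=
  ∀ x, pr2 (Q.aj (J1 v) x) (D2 v x) = σ * Q.bj (J1 v) x + (1 - σ) * Q.c l x * v x

variable [NormedAddCommGroup W] [NormedSpace ℝ W]

/-- the hypotheses -/
structure Ok : Prop where
  dim : 3 ≤ n
  ρ0 : R0 M + 1 ≤ Q.ρ
  β0 : Q.β ∈ Ioo (0 : ℝ) 1
  n1 : ∃ A, Nl Q.ρ Q.β A Q.w₁
  n2 : ∃ A, Nl Q.ρ Q.β A Q.w₂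
  lip : ∃ A, ∀ h, Continuous h → ∀ x, ∀ y ∈ ball (pt x) 1, ∀ i k,
    |Stmt.pd k (fun z => Q.w₁ (ch x) h z i) y| ≤ A
  sa : ∀ x, ContDiff ℝ ∞ (Q.a (ch x))
  sb : ∀ x, ContDiff ℝ ∞ (Q.b (ch x))
  ca : ∀ h, Continuous h → ∀ x y z,
    repU (ch x) (fun p => Q.A h p z) y = Q.a (ch x) (y, Q.w₁ (ch x) h y, z)
  cb : ∀ h, Continuous h → ∀ x y z q, Q.B h ((ch x).symm y) z (tC (ch x) y q) =
    qd (Q.b (ch x) (y, Q.w₂ (ch x) h y, z)) q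
  el : ∀ h, Continuous h → ∀ x, ∀ y ∈ ball (pt x) 1, ∀ z,
    El Q.Λ (Q.a (ch x) (y, Q.w₁ (ch x) h y, z))
  fa : ∀ h, Continuous h → ∀ x z, Q.ρ ≤ ‖px x‖ → Q.A h x z = eu n x
  fb : ∀ h, Continuous h → ∀ x y z, Q.ρ ≤ ‖px ((ch x).symm y)‖ →
    Q.b (ch x) (y, Q.w₂ (ch x) h y, z) = 0

end Pb

/-- a statement for all problems -/
def ForP (P : ∀ (n : ℕ) (M : Type) [Mfe n M] (W : Type), Pb n M W → Prop) : Prop :=
  ∀ (n : ℕ) (M : Type) [Mfe n M] (W : Type) [NormedAddCommGroup W] [NormedSpace ℝ W]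
    [FiniteDimensional ℝ W] (Q : Pb n M W), Q.Ok → P n M W Q

/-- **NHO**: the Hölder estimate under natural growth -/
def NHO : Prop := ∀ (n : ℕ) (M : Type) [Mfe n M] (Λ K : ℝ), 3 ≤ n → ∃ θ ∈ Ioo (0 : ℝ) 1, ∃ C : ℝ,
  ∀ (a : M → E n → Mx n) (v : M → ℝ), (∀ x, ContDiff ℝ 1 (a x)) → CD 2 v → (∀ x, |v x| ≤ K) →
    (∀ x, ∀ y ∈ ball (pt x) 1, El Λ (a x y) ∧ (∀ i j k, |Stmt.pd k (fun z => a x z i j) y| ≤
      Λ * (1 + ‖rC (ch x) (D1 v) y‖)) ∧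
      |pr2 (a x y) (rep (ch x) (D2 v) y)| ≤ Λ * (1 + e2 (rC (ch x) (D1 v) y))) → HoS θ C v

/-- **NQ1**: the structure conditions of the principle of Leray and Schauder -/
def NQ1 : Prop := ForP fun _ _ _ _ Q => ∀ l α : ℝ, 0 ≤ l → 0 < α → α ≤ Q.β →
  (∃ N, ∀ σ ∈ Icc (0 : ℝ) 1, ∀ v, (∃ A, C2H α A v) → Tendsto v (cocompact _) (𝓝 0) →
    Q.Eqn l σ v → HoJ α N (J1 v)) → Ql Q.Λ Q.ρ l α (Q.c l) Q.aj Q.bj

/-- **NQ2**: the a priori estimate -/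
def NQ2 : Prop := ForP fun _ _ _ _ Q => ∀ l K : ℝ, 0 ≤ l → ∃ α > (0 : ℝ), α ≤ Q.β ∧ ∃ N,
  ∀ σ ∈ Icc (0 : ℝ) 1, ∀ v, Smooth v → (∃ A, C2H α A v) → (∀ x, |v x| ≤ K) → Q.Eqn l σ v →
    HoJ α N (J1 v)

/-- **NQE**: existence -/
def NQE : Prop := ForP fun _ _ _ _ Q => (∃ l₁, ∀ l ≥ l₁, ∃ K, ∀ σ ∈ Icc (0 : ℝ) 1, ∀ v, Smooth v →
  Tendsto v (cocompact _) (𝓝 0) → Q.Eqn l σ v → ∀ x, |v x| ≤ K) →
  ∃ l v, Smooth v ∧ Tendsto v (cocompact _) (𝓝 0) ∧ Q.Eqn l 1 v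

/-- **MINP**: the minimum principle along the homotopy -/
def MINP : Prop := ∀ (n : ℕ) (M : Type) [Mfe n M] (U : M → ℝ) (r ρ Λ : ℝ), 3 ≤ n → R0 M + 1 ≤ r →
  r ≤ ρ → Smooth U → (∀ x, 3 / 4 ≤ U x ∧ U x ≤ 9 / 8) →
  (∀ x, r ≤ ‖px x‖ → pr2 (eu n x) (D2 U x) = 0) →
  ∃ l₁ : ℝ, ∀ l ≥ l₁, ∀ σ ∈ Icc (0 : ℝ) 1, ∀ (a : Fld n M) (N u : M → ℝ) (a₀ : ℝ), a₀ ≤ 1 →
    (∀ x, El Λ (a x)) → (∀ x, r ≤ ‖px x‖ → a x = eu n x) → Smooth u →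
    Tendsto u (cocompact M) (𝓝 1) →
    (∀ x, σ * N x + (1 - σ) * (pr2 (a x) (D2 (fun y => U y * (u y - 1)) x) -
      l * rc ρ x * (U x * (u x - 1))) = 0) →
    (∀ x, ‖px x‖ ≤ r → IsLocalMin u x → u x < a₀ → 0 < N x) →
    (∀ x, r ≤ ‖px x‖ → u x < a₀ → pr2 (eu n x) (D2 (fun y => U y * (u y - 1)) x) ≤ N x) →
    ∀ x, a₀ ≤ u x

/-! ### the operator -/

/-- the operator -/
def nu (g : Fld n M) (φ : ℝ → ℝ) (f Λ u : M → ℝ) (x : M) : ℝ :=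
  4 * gam n * lap (gb g (fun y => φ (u y)) f) u x -
    (scal (gb g (fun y => φ (u y)) f) x - Λ x) * Tr (u x)

/-- the normalisation -/
def ka (n : ℕ) {M : Type} (U : M → ℝ) (x : M) : ℝ := U x ^ (2 * bb n) / (4 * gam n)

/-- the principal part for the unknown `v = U (u - 1)`, in the chart `e` -/
def av (g : Fld n M) (U : M → ℝ) (φ : ℝ → ℝ) (e : Ch n M) : E n × Vc n × ℝ → Mx n :=
  P366Y.F.av (rep e g) (loc e U) φ

/-- the Christoffel symbols of the background metric applied to a covector, in the chart `e` -/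
def cg (e : Ch n M) (y : E n) (p : Vc n) : Mx n := fun i j =>
  ∑ k, Stmt.chr (rep e bg) k i j y * p k

/-- the right hand side for the unknown `v = U (u - 1)`, in the chart `e` -/
def bv (g : Fld n M) (U : M → ℝ) (φ : ℝ → ℝ) {m : ℕ} (θ : Fin m → ℝ → ℝ) (e : Ch n M)
    (w : E n × (Vc n × Mx n × (Fin m → ℝ)) × ℝ) (q : Vc n) : ℝ :=
  P366Y.F.bv (rep e g) (loc e U) φ θ
      (w.1, (w.2.1.1, w.2.1.2.1 + cg e w.1 w.2.1.1, w.2.1.2.2), w.2.2) q -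
    pr2 (av g U φ e (w.1, w.2.1.1, w.2.2)) (cg e w.1 q)

/-- **JET**: the right hand side is a quadratic polynomial with smooth coefficients -/
def JET : Prop := ∀ (n : ℕ) (M : Type) [Mfe n M] (m : ℕ) (g : Fld n M) (U : M → ℝ) (φ : ℝ → ℝ)
  (θ : Fin m → ℝ → ℝ), Met g → Smooth U → (∀ x, 0 < U x) → ContDiff ℝ ∞ φ →
  (∀ k, ContDiff ℝ ∞ (θ k)) → ∀ e ∈ At M, ContDiff ℝ ∞ (av g U φ e) ∧
    ∃ B : E n × (Vc n × Mx n × (Fin m → ℝ)) × ℝ → ℝ × Vc n × Mx n, ContDiff ℝ ∞ B ∧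
      ∀ w q, qd (B w) q = bv g U φ θ e w q

/-- **CHG**: the change of the unknown, in every chart, and the laws of transformation -/
def CHG : Prop := ∀ (n : ℕ) (M : Type) [Mfe n M] (m : ℕ) (g : Fld n M) (U : M → ℝ) (φ : ℝ → ℝ)
  (θ : Fin m → ℝ → ℝ) (f : M → ℝ) (lm : M → Fin m → ℝ), Met g → Smooth U → (∀ x, 0 < U x) →
  ContDiff ℝ ∞ φ → (∀ z, 0 < φ z) → Smooth f →
  (∀ v, Smooth v → ∀ x, pr2 (av g U φ (ch x) (pt x, D1 f x, v x)) (D2 v x) -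
      bv g U φ θ (ch x) (pt x, (D1 f x, D2 f x, lm x), v x) (D1 v x) =
    ka n U x * U x * nu g φ f (fun y => La θ (lm y) (1 + v y / U y)) (fun y => 1 + v y / U y) x) ∧
  ∀ e ∈ At M, ∀ y z, repU e (fun p => av g U φ (ch p) (pt p, D1 f p, z)) y =
      av g U φ e (y, rC e (D1 f) y, z) ∧
    ∀ q, bv g U φ θ (ch (e.symm y)) (pt (e.symm y),
        (D1 f (e.symm y), D2 f (e.symm y), lm (e.symm y)), z) (tC e y q) =
      bv g U φ θ e (y, (rC e (D1 f) y, rep e (D2 f) y, lm (e.symm y)), z) q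

/-- **ELL**: ellipticity -/
def ELL : Prop := ∀ (n : ℕ) (M : Type) [Mfe n M] (X : Dat n M) (φ : ℝ → ℝ) (A : ℝ), X.Ok → Wb φ →
  (∃ Λ, ∀ x, ∀ y ∈ ball (pt x) 1, ∀ p z, ‖p‖ ≤ A → El Λ (av X.g X.U φ (ch x) (y, p, z))) ∧
    ∀ x z, X.ρ ≤ ‖px x‖ → av X.g X.U φ (ch x) (pt x, 0, z) = eu n x

/-- **FARL**: the operator outside the ball of radius `ρ` -/
def FARL : Prop := ∀ (n : ℕ) (M : Type) [Mfe n M] (X : Dat n M) (φ : ℝ → ℝ) (f Λ u : M → ℝ),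
  X.Ok → Smooth u → (∀ x, X.R + 6 ≤ ‖px x‖ → f x = 0) → ∀ x, X.ρ ≤ ‖px x‖ →
    pr2 (eu n x) (D2 X.U x) = 0 ∧ D1 f x = 0 ∧ D2 f x = 0 ∧ scal X.g x = 0 ∧
    scal (gb X.g (fun y => φ (u y)) f) x = 0 ∧ ka n X.U x * X.U x * nu X.g φ f Λ u x =
      pr2 (eu n x) (D2 (fun y => X.U y * (u y - 1)) x) +
        ka n X.U x * X.U x * (Λ x * Tr (u x))

end Vale.Agent.P366M.Y.F
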