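import Vale.Agent.P366Q.F.Bas
import Vale.Agent.P366M.Max
import Vale.Agent.P366Y.F.Ell
import Vale.Agent.P366Y.F.Minp

/-!
# P366Q, block F: rows ELL, MINP
-/

open MeasureTheory Metric Filter Topology Set
open scoped ContDiff ENNReal
open Vale.Agent.P366 Vale.Agent.P366.Stmt Vale.Agent.P366Z Vale.Agent.P366Y
open Vale.Agent.P366Y.F (qd Tr La Wb Tr_pos)

noncomputable section

namespace Vale.Agent.P366M.Y.F

/-- **row ELL** -/
theorem ell : ELL := by
  intro n M _ X φ A h ⟨c, c0, C, hC⟩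
  have U0 := J.U0 h
  have g1 := one_lt_gam h.dim
  have g2 := gam_le h.dim
  have b0 : 0 ≤ 2 * bb n := by linarith [bb_pos h.dim]
  have κ0 : ∀ x, 0 < X.U x ^ (2 * bb n) := fun x => Real.rpow_pos_of_pos (U0 x) _
  have hu : ∀ (x : M) y i j, Stmt.up (rep (ch x) X.g) i j y =
      (X.U ((ch x).symm y) ^ (2 * bb n))⁻¹ * Stmt.up (rep (ch x) X.g₀) i j y := fun x y i j => by
    rw [← Real.rpow_neg (U0 _).le, Dat.g, rep_cf]
    exact (h.met.loc' x).up_cf (U0 _) i j
  refine ⟨?_, fun x z hx => funext fun i => funext fun j => ?_⟩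
  · obtain ⟨Λ, ρ', hΛ⟩ := h.met.fl_ell h.flat
    have l0 : (0 : ℝ) < (3 / 4) ^ (2 * bb n) := by positivity
    obtain ⟨N, M1, M2, M3⟩ : ∃ N : ℝ, 1 ≤ N ∧ (∀ x, X.U x ^ (2 * bb n) ≤ N) ∧
        ∀ x, (X.U x ^ (2 * bb n))⁻¹ ≤ N :=
      ⟨max 1 (max ((9 / 8) ^ (2 * bb n)) ((3 / 4) ^ (2 * bb n))⁻¹), le_max_left _ _,
        fun x => (Real.rpow_le_rpow (U0 x).le (h.Ub x).2 b0).trans
          ((le_max_left _ _).trans (le_max_right _ _)),
        fun x => (inv_anti₀ l0 (Real.rpow_le_rpow (by norm_num) (h.Ub x).1 b0)).trans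
          ((le_max_right _ _).trans (le_max_right _ _))⟩
    obtain ⟨L, hL⟩ : ∃ L, ∀ {G : Stmt.Field n} {y : E n} {p : Vc n} {φ τ k : ℝ}, P366Z.Met G →
        (∀ i j, |Stmt.up G i j y| ≤ N * Λ) → (∀ ξ, e2 ξ ≤ N * Λ * P366Y.sq G y ξ) →
        (∀ i, |p i| ≤ A) → 0 < φ → φ ≤ C → 0 ≤ τ → τ ≤ 2 * C * C → 0 < k → k ≤ N * Λ →
        1 ≤ N * Λ * (k * (4 * gam n)) → El L fun i j => k * (4 * gam n * (Stmt.up G i j y -
          φ ^ 2 * P366Y.rs G y p i * P366Y.rs G y p j / (1 + φ ^ 2 * P366Y.sq G y p)) +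
          τ * (P366Y.sq G y p * Stmt.up G i j y - P366Y.rs G y p i * P366Y.rs G y p j) /
            (1 + φ ^ 2 * P366Y.sq G y p)) :=
      ⟨_, fun a1 a2 a3 a4 a5 a6 a7 a8 => P366Y.F.Ell.core a1 a2 a3 a4 a5 a6 a7 a8 (by linarith)
        (by linarith)⟩
    refine ⟨L, fun x y hy p z hp => ?_⟩
    obtain ⟨G, -, -, hG, eG⟩ := hΛ x
    have e0 : ∀ i j, Stmt.up G i j y = Stmt.up (rep (ch x) X.g₀) i j y := fun i j =>
      P366Z.up_of_eq (eG y (ball_subset_ball (by norm_num) hy)).eq_of_nhds i j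
    have L1 := hG.one
    have ML : N ≤ N * Λ := le_mul_of_one_le_right (by linarith) L1
    have mg := (J.mg h).loc' x
    refine hL mg (fun i j => ?_) (fun ξ => ?_) (fun i => (norm_le_pi_norm p i).trans hp)
      (c0.trans_le (hC _).1) (hC _).2.1 ?_ ?_
      (div_pos (κ0 _) (show 0 < 4 * gam n by linarith)) ?_ ?_
    · rw [hu x y i j, abs_mul, abs_of_pos (inv_pos.2 (κ0 _)), ← e0]
      exact mul_le_mul (M3 _) (hG.up_bd y i j).1 (abs_nonneg _) (by linarith)
    · have e : ∑ i, ∑ j, Stmt.up G i j y * ξ i * ξ j =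
          X.U ((ch x).symm y) ^ (2 * bb n) * P366Y.sq (rep (ch x) X.g) y ξ := by
        simp only [P366Y.sq, hu, e0, mul_assoc, ← Finset.mul_sum]
        rw [mul_inv_cancel_left₀ (κ0 _).ne']
      refine (hG.up_lo y ξ).trans ?_
      rw [e, ← mul_assoc, mul_comm Λ]
      exact mul_le_mul_of_nonneg_right (mul_le_mul_of_nonneg_right (M2 _) (by linarith))
        (mg.up_nonneg y ξ)
    · exact mul_nonneg (mul_nonneg (mul_nonneg two_pos.le (Tr_pos _).le)
        (c0.trans_le (hC _).1).le) (hC _).2.2.1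
    · generalize 1 + z / loc (ch x) X.U y = z
      obtain ⟨a1, a2, a3, a4⟩ := hC z
      have := mul_le_mul a2 a4 (mul_nonneg (Tr_pos z).le a3) ((c0.trans_le a1).le.trans a2)
      linarith
    · exact ((div_le_self (κ0 _).le (by linarith)).trans (M2 _)).trans ML
    · rw [P366Y.F.ka, div_mul_cancel₀ _ (show 4 * gam n ≠ 0 by linarith)]
      have := mul_le_mul_of_nonneg_right ((M3 ((ch x).symm y)).trans ML) (κ0 ((ch x).symm y)).le
      rwa [inv_mul_cancel₀ (κ0 _).ne'] at this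
  · have e : up X.g₀ i j x = eu n x i j := (up_of_eq (h.flat.eq x hx) i j).trans (up_eu i j x)
    have := (κ0 x).ne'
    have : gam n ≠ 0 := by linarith
    simp only [av, P366Y.F.av, P366Y.F.aa, P366Y.F.ka, P366Y.rs, P366Y.sq, Pi.zero_apply, mul_zero,
      Finset.sum_const_zero, zero_mul, zero_div, sub_zero, add_zero, hu, up_pt, e, loc_pt, symm_pt]
    field_simp

theorem at_min {n : ℕ} {M : Type} [Mfe n M] {Λ : ℝ} {a : Mx n} {w : M → ℝ} {x : M} (h : El Λ a)
    (hw : CAt 2 w x) (hx : IsLocalMin w x) : 0 ≤ pr2 a (D2 w x) := by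
  have k := P366Y.Mp.at_max (w := loc (ch x) fun y => -w y) h hw.neg (isLocalMax_loc hx.neg)
  have e : D2 (fun y => -w y) x = P366Y.D2 (loc (ch x) fun y => -w y) (pt x) := by
    funext i j
    simp only [D2, hess, pd_neg, pd_of_isLocalMin hx, neg_zero, mul_zero, Finset.sum_const_zero,
      sub_zero]
    rfl
  rw [← e, d2_neg] at k
  linarith

/-- **row MINP** -/
theorem minp : MINP := by
  intro n M _ U r ρ Λ hn r0 rρ hU Ub Uh
  have R8 := R0_ge M
  obtain ⟨K, K0', hK⟩ := bdd_ch (M := M) (F := fun e y => ∑ i, ∑ j, |rep e (D2 U) y i j|)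
    (fun e he => continuous_finsetSum _ fun i _ => continuous_finsetSum _ fun j _ =>
      (bg_met.sm_hess hU e he i j).cont.abs) r 0
  refine ⟨2 * (|Λ| * |K|) + 1, fun l hl σ hσ a N u a₀ a1 ha ae hu u1 eq h1 h2 => ?_⟩
  have K0 : 0 ≤ |Λ| * |K| := by positivity
  have ne : {x : M | ‖px x‖ ≤ r}.Nonempty := by
    have i : Fin n := ⟨0, by omega⟩
    have e : ‖(EuclideanSpace.single i r : E n)‖ = r := by simp; linarith
    exact ⟨yp (EuclideanSpace.single i r), by
      rw [mem_ofPred, px_yp (by linarith), e]⟩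
  obtain ⟨z, hz, zm⟩ := (isCompact_px M r).exists_isMinOn ne hu.cont.continuousOn
  obtain ⟨m, hm⟩ : ∃ m, m = min a₀ (u z) := ⟨_, rfl⟩
  have m1 : m ≤ a₀ := hm ▸ min_le_left _ _
  have cv : Smooth fun y => U y * (u y - 1) := CD.mul hU (CD.sub hu cd_const)
  have cw : Smooth fun y => U y * (u y - 1) - (m - 1) * U y := CD.sub cv (cd_const.mul hU)
  have hO : IsOpen {x : M | r < ‖px x‖ ∧ u x < a₀} :=
    (isOpen_lt continuous_const cont_npx).inter (isOpen_lt hu.cont continuous_const)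
  have out : ∀ x, x ∉ {x : M | r < ‖px x‖ ∧ u x < a₀} →
      0 ≤ U x * (u x - 1) - (m - 1) * U x := fun x hx => by
    have : m ≤ u x := by
      rcases le_or_gt ‖px x‖ r with k | k
      · exact (hm ▸ min_le_right _ _ : m ≤ u z).trans (zm k)
      · exact m1.trans (not_lt.1 fun k' => hx ⟨k, k'⟩)
    nlinarith [(Ub x).1]
  have key : ∀ x, 0 ≤ U x * (u x - 1) - (m - 1) * U x := fun x => by
    refine by_cases (fun hx => ?_) (out x)
    refine wmp n M bg (fun _ => 1) _ (fun _ => 0) _ (by omega) bg_met cd_const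
      (fun _ => one_pos) hO cw.cont.continuousOn (fun y hy => ⟨cw.c2 y, le_rfl, ?_⟩)
      (fun y hy => out y (hO.interior_eq ▸ hy.2)) (fun e he => ?_) x hx
    · have k0 : R0 M < ‖px y‖ := by linarith [hy.1]
      have k1 := eq y
      have k2 := mul_le_mul_of_nonneg_left (h2 y hy.1.le hy.2) hσ.1
      have k3 : 0 ≤ (1 - σ) * (l * rc ρ y * (U y * (1 - u y))) :=
        mul_nonneg (sub_nonneg.2 hσ.2) (mul_nonneg (mul_nonneg (by linarith) (J.rc_mem ρ y).1)
          (mul_nonneg (by linarith [(Ub y).1]) (by linarith [hy.2])))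
      rw [ae y hy.1.le] at k1
      rw [wl_one, lap_of_ev (bg_ev k0), ← pr2_eu k0, d2_lin (cv.c2 y) (hU.c2 y), Uh y hy.1.le]
      linarith
    · obtain ⟨R, hR⟩ := ev_cocompact.1
        (u1.eventually (Ici_mem_nhds (show 1 - e / 2 < 1 by linarith)))
      refine ⟨R, fun y _ hy => ?_⟩
      have k1 : 1 - e / 2 ≤ u y := hR y hy
      nlinarith [(Ub y).1, (Ub y).2]
  have mu : ∀ x, m ≤ u x := fun x => by nlinarith [key x, (Ub x).1]
  intro x
  refine le_trans (not_lt.1 fun k => ?_) (mu x)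
  have e : m = u z :=
    hm.trans (min_eq_right (not_lt.1 fun k' => k.ne (hm.trans (min_eq_left k'.le))))
  have k1 := h1 z hz (.of_forall fun y => e ▸ mu y) (e ▸ k)
  have k2 := at_min (x := z) (ha z) (cw.c2 z) (.of_forall fun y => by
    simp only [← e, mul_comm (U z), sub_self, key y])
  have k0 := hK z hz _ (mem_closedBall_self le_rfl)
  simp only [rep_pt] at k0
  have k3 := (P366Y.F.Mi.pr2_le (ha z) (D2 U z)).trans (mul_le_mul_of_nonneg_left
    ((le_abs_self _).trans (k0.trans (le_abs_self K))) (abs_nonneg Λ))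
  have k4 := eq z
  rw [d2_lin (cv.c2 z) (hU.c2 z)] at k2
  rw [J.rc_one (by linarith) (hz.trans rρ), ← e] at k4
  have k5 : |Λ| * |K| < l * U z := by nlinarith [(Ub z).1]
  have k6 := mul_pos (show 0 < 1 - m by linarith) (sub_pos.2 (k3.trans_lt k5))
  have k7 : 0 < pr2 (a z) (D2 (fun y => U y * (u y - 1)) z) - l * 1 * (U z * (m - 1)) := by
    linarith
  have k8 := mul_nonneg hσ.1 k1.le
  have k9 := mul_nonneg (sub_nonneg.2 hσ.2) k7.le
  have s0 := (mul_eq_zero.1 (le_antisymm (by linarith) k8)).resolve_right k1.ne'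
  have s1 := (mul_eq_zero.1 (le_antisymm (by linarith) k9)).resolve_right k7.ne'
  linarith

end Vale.Agent.P366M.Y.F
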