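import Vale.Agent.P366Q.F.Cmp
import Vale.Agent.P366Y.F.Nq1

/-!
# P366Q, block F, row NQ1: the structure conditions
-/

open MeasureTheory Metric Filter Topology Set
open scoped ContDiff ENNReal
open Vale.Agent.P366 Vale.Agent.P366.Stmt Vale.Agent.P366Z Vale.Agent.P366Y
open Vale.Agent.P366Y.F (qd)
open Vale.Agent.P366Y.F.Nq1H (qd_zero)

noncomputable section

namespace Vale.Agent.P366M.Y.F

variable {n : ℕ} {M : Type} [Mfe n M] {W : Type} [NormedAddCommGroup W] [NormedSpace ℝ W]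
  {Q : Pb n M W} {h h' : M → ℝ} {x : M} {y : E n}

theorem ct_eq {ρ : ℝ} {w : (M → ℝ) → M → W} (hw : Ct ρ w) (c : Continuous h) (c' : Continuous h')
    (e : ∀ x, ‖px x‖ ≤ ρ → h x = h' x) (x : M) : w h x = w h' x :=
  sub_eq_zero.1 (norm_le_zero_iff.1 (le_of_forall_pos_le_add fun ε hε => by
    obtain ⟨d, d0, hd⟩ := hw ε hε
    rw [zero_add]
    exact hd h h' c c' (fun y k => by rw [e y k, sub_self, abs_zero]; exact d0.le) x))

theorem far_px {r : ℝ} (hr : R0 M ≤ r) (hx : r + 1 ≤ ‖px x‖) (hy : y ∈ ball (pt x) 1) :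
    r ≤ ‖px ((ch x).symm y)‖ := by
  obtain ⟨a, b, -⟩ := far_ball (by linarith) hy
  rw [a]
  linarith

namespace Pb.Ok

variable (hQ : Q.Ok)
include hQ

theorem ρ_nn : 0 ≤ Q.ρ := by linarith [hQ.ρ0, R0_ge M]

theorem a_far (c : Continuous h) (hx : Q.ρ + 1 ≤ ‖px x‖) (hy : y ∈ ball (pt x) 1) (z : ℝ) :
    Q.a (ch x) (y, Q.w₁ (ch x) h y, z) = P366Z.eu n 0 := by
  have r := hQ.ρ0
  have := mat_repU (ch x) (fun p => Q.A h p z) y
  rw [(far_ball (by linarith) hy).2.2.1, inv_one, Matrix.transpose_one, Matrix.one_mul,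
    Matrix.mul_one] at this
  exact (hQ.ca h c x y z).symm.trans (this.trans (hQ.fa h c _ z (far_px (by linarith) hx hy)))

theorem b_far (c : Continuous h) (hx : Q.ρ + 1 ≤ ‖px x‖) (hy : y ∈ ball (pt x) 1) (z : ℝ) :
    Q.b (ch x) (y, Q.w₂ (ch x) h y, z) = 0 :=
  hQ.fb h c x y z (far_px (by linarith [hQ.ρ0]) hx hy)

theorem B_far (c : Continuous h) (hx : Q.ρ ≤ ‖px x‖) (z : ℝ) (q : Vc n) : Q.B h x z q = 0 := by
  rw [Pb.B, hQ.fb h c x _ z (by rwa [symm_pt]), qd_zero]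

theorem c_far (l : ℝ) (hx : Q.ρ + 1 + 1 ≤ ‖px x‖) (hy : y ∈ ball (pt x) 1) :
    Q.c l ((ch x).symm y) = 0 := by
  rw [Pb.c, J.rc_zero hQ.ρ_nn (far_px (by linarith [hQ.ρ0]) hx hy), mul_zero]

theorem aj_rep {j : M → ℝ × Vc n} (c : Continuous fun y => (j y).1) (x : M) (y : E n) :
    repU (ch x) (Q.aj j) y =
      Q.a (ch x) (y, Q.w₁ (ch x) (fun y => (j y).1) y, (j ((ch x).symm y)).1) :=
  hQ.ca _ c x y _

theorem bj_rep {j : M → ℝ × Vc n} (c : Continuous fun y => (j y).1) (x : M) (y : E n) :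
    Q.bj j ((ch x).symm y) = qd (Q.b (ch x) (y, Q.w₂ (ch x) (fun y => (j y).1) y,
      (j ((ch x).symm y)).1)) (rC (ch x) (fun p => (j p).2) y) := by
  rw [← hQ.cb _ c, tC_rC (ch_mem x)]
  rfl

theorem el_pt (c : Continuous h) (x : M) (z : ℝ) : El Q.Λ (Q.A h x z) :=
  hQ.el h c x _ (pt_mem x) z

end Pb.Ok

theorem sm_c (Q : Pb n M W) (l : ℝ) : Smooth (Q.c l) := cd_const.mul (J.sm_rc _)

/-- **row NQ1** -/
theorem nq1 : NQ1 := by
  intro n M _ W _ _ _ Q hQ l α hl h0 hβ hap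
  have hα : α ∈ Ioo (0 : ℝ) 1 := ⟨h0, hβ.trans_lt hQ.β0.2⟩
  have ρ0 := hQ.ρ_nn
  obtain ⟨A₁, n1⟩ := hQ.n1
  obtain ⟨A₂, n2⟩ := hQ.n2
  have p1 : 0 ≤ 2 * |A₁| := by positivity
  have p2 : 0 ≤ 2 * |A₂| := by positivity
  have ct : ∀ {N} {j : M → ℝ × Vc n}, HoJ α N j → Continuous fun y => (j y).1 :=
    fun k => k.1.cont h0
  have y1 : ∀ {N} {j : M → ℝ × Vc n}, HoJ α N j → ∀ x, HoB α (2 * |A₁| + N) (fun y =>
      (Q.w₁ (ch x) (fun y => (j y).1) y, (j ((ch x).symm y)).1)) (ball (pt x) 1) := fun k x =>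
    ((low (n1.ho _ (ct k) x) h0.le hβ).mono (le_add_of_nonneg_right k.nn)).prod
      ((k.1 x).mono (le_add_of_nonneg_left p1))
  have y2 : ∀ {N} {j : M → ℝ × Vc n}, HoJ α N j → ∀ x, HoB α (2 * |A₂| + N) (fun y =>
      (Q.w₂ (ch x) (fun y => (j y).1) y, (j ((ch x).symm y)).1, rC (ch x) (fun p => (j p).2) y))
      (ball (pt x) 1) := fun k x =>
    ((low (n2.ho _ (ct k) x) h0.le hβ).mono (le_add_of_nonneg_right k.nn)).prod
      (((k.1 x).prod (k.2 x)).mono (le_add_of_nonneg_left p2))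
  have fa : ∀ {N} {j : M → ℝ × Vc n}, HoJ α N j → ∀ x, Q.ρ ≤ ‖px x‖ → Q.aj j x = eu n x :=
    fun k x hx => hQ.fa _ (ct k) x _ hx
  have fb : ∀ {N} {j : M → ℝ × Vc n}, HoJ α N j → ∀ x, Q.ρ ≤ ‖px x‖ → Q.bj j x = 0 :=
    fun k x hx => hQ.B_far (ct k) hx _ _
  have sa : ∀ x, ContDiff ℝ 1 (Q.a (ch x)) := fun x => (hQ.sa x).of_le one_le_oo
  have sb' : ∀ x, ContDiff ℝ 1 fun z : E n × W × ℝ × Vc n =>
      qd (Q.b (ch x) (z.1, z.2.1, z.2.2.1)) z.2.2.2 := fun x => by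
    have := (hQ.sb x).of_le one_le_oo
    unfold qd
    fun_prop
  refine ⟨?_, fun N => ?_, fun N e he => ?_, ?_, hap⟩
  · obtain ⟨Λ, -, -, h⟩ := cmp (V := ℝ) (fun e z => Q.c l (e.symm z.1))
      (fun x => ((sm_c Q l).one _ (ch_mem x)).comp contDiff_fst) (Q.ρ + 1 + 1) 0
    exact ⟨_, h α hα (fun _ _ => 0) 0 (fun x => ⟨by simp, by simp⟩) fun x hx y hy =>
      hQ.c_far l hx hy⟩
  · obtain ⟨Λ₁, l1, -, h1⟩ := cmp Q.a sa (Q.ρ + 1) (2 * |A₁| + N)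
    obtain ⟨Λ₂, l2, -, h2⟩ := cmp (fun e (z : E n × W × ℝ × Vc n) =>
      qd (Q.b e (z.1, z.2.1, z.2.2.1)) z.2.2.2) sb' (Q.ρ + 1) (2 * |A₂| + N)
    have e1 := norm_nonneg (P366Z.eu n 0)
    have e2 := abs_nonneg Q.Λ
    have e3 := le_abs_self Q.Λ
    refine ⟨|Q.Λ| + (Λ₁ + ‖P366Z.eu n 0‖) + Λ₂, fun j k => ⟨⟨⟨_, fun x => hQ.el_pt (ct k) x _⟩,
      fun x => (hQ.el_pt (ct k) x _).2.1, fa k, fun x => ⟨mul_nonneg hl (J.rc_mem _ x).1,
        mul_le_of_le_one_right hl (J.rc_mem _ x).2⟩, fun x hx => ?_⟩,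
      fun x => el_mono (hQ.el_pt (ct k) x _) (by linarith),
      fun x => ((h1 α hα _ _ (y1 k) (fun x hx y hy => hQ.a_far (ct k) hx hy _) x).mono
        (by linarith)).congr fun y _ => hQ.aj_rep (ct k) x y,
      fun x => ((h2 α hα _ 0 (y2 k) (fun x hx y hy => ?_) x).mono
        (by rw [norm_zero]; linarith)).congr fun y _ => hQ.bj_rep (ct k) x y, fun x hx => ?_⟩⟩
    · rw [Pb.c, J.rc_one ρ0 hx, mul_one]
    · simp only [hQ.b_far (ct k) hx hy, qd_zero]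
    · rw [fb k x (by linarith), Pb.c, J.rc_zero ρ0 hx, mul_zero, zero_mul]
  · obtain ⟨Λ₁, l1, h1, -⟩ := cmp Q.a sa Q.ρ (2 * |A₁| + N)
    obtain ⟨Λ₂, l2, h2, -⟩ := cmp (fun e (z : E n × W × ℝ × Vc n) =>
      qd (Q.b e (z.1, z.2.1, z.2.2.1)) z.2.2.2) sb' Q.ρ (2 * |A₂| + N)
    obtain ⟨ε, ε0, hε⟩ : ∃ ε > (0 : ℝ), (Λ₁ + Λ₂ + 1) * ε = e :=
      ⟨e / (Λ₁ + Λ₂ + 1), by positivity, mul_div_cancel₀ _ (by positivity)⟩
    obtain ⟨d₁, q1, k1⟩ := n1.ct ε ε0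
    obtain ⟨d₂, q2, k2⟩ := n2.ct ε ε0
    refine ⟨min ε (min d₁ d₂), by positivity, fun j j' k k' hd x => ?_⟩
    simp only [le_min_iff] at hd
    have hd' : ∀ y, |(j y).1 - (j' y).1| ≤ ‖j y - j' y‖ := fun y => norm_fst_le (j y - j' y)
    rcases le_total ‖px x‖ Q.ρ with hx | hx
    · have m := pt_mem x
      have a1 := (h1 x hx _ m _ _ ((y1 k x).1 _ m) ((y1 k' x).1 _ m)).2.2
      have a2 := (h2 x hx _ m _ _ ((y2 k x).1 _ m) ((y2 k' x).1 _ m)).2.2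
      simp only [symm_pt, rC_pt] at a1 a2
      have b1 := mul_le_mul_of_nonneg_left (max_le (k1 _ _ (ct k) (ct k')
        (fun y _ => (hd' y).trans (hd y).2.1) x) ((hd' x).trans (hd x).1)) l1
      have b2 := mul_le_mul_of_nonneg_left (max_le (k2 _ _ (ct k) (ct k')
        (fun y _ => (hd' y).trans (hd y).2.2) x) (hd x).1) l2
      exact ⟨(a1.trans b1).trans (by nlinarith), (a2.trans b2).trans (by nlinarith)⟩
    · rw [fa k x hx, fa k' x hx, fb k x hx, fb k' x hx, sub_self, sub_self, norm_zero, abs_zero]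
      exact ⟨he.le, he.le⟩
  · rintro j j' ⟨N, k, k'⟩ h x hx
    have e : ∀ y, ‖px y‖ ≤ Q.ρ → (j y).1 = (j' y).1 := fun y hy => by rw [h y (by linarith)]
    have e1 := ct_eq n1.ct (ct k) (ct k') e x
    have e2 := ct_eq n2.ct (ct k) (ct k') e x
    simp only [Pb.aj, Pb.bj, Pb.A, Pb.B, e1, e2, h x (by linarith), and_self]

end Vale.Agent.P366M.Y.F
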