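import Vale.Agent.P366Q.F.Nq1

/-!
# P366Q, block F: the a priori estimate
-/

open MeasureTheory Metric Filter Topology Set
open scoped ContDiff ENNReal
open Vale.Agent.P366 Vale.Agent.P366.Stmt Vale.Agent.P366Z Vale.Agent.P366Y
open Vale.Agent.P366Y.F (qd)
open Vale.Agent.P366Y.F.Nq2H (qd_le qd_sub qd_lip cvx chain)

noncomputable section

namespace Vale.Agent.P366M.Y.F

/-- **NQ2** -/
theorem nq2_of (hS : NATS) : NQ2 := by
  intro n M _ W _ _ _ Q hQ l K hl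
  obtain ⟨A₁, n1⟩ := hQ.n1
  obtain ⟨A₂, n2⟩ := hQ.n2
  obtain ⟨A₃, n3⟩ := hQ.lip
  obtain ⟨N, hN', N0⟩ : ∃ N : ℝ, N = 1 + n + n * n ∧ 0 ≤ N := ⟨_, rfl, by positivity⟩
  have sa : ∀ x, ContDiff ℝ 1 (Q.a (ch x)) := fun x => (hQ.sa x).of_le one_le_oo
  have sb : ∀ x, ContDiff ℝ 1 (Q.b (ch x)) := fun x => (hQ.sb x).of_le one_le_oo
  have sc : ∀ x : M, ContDiff ℝ 1 fun w : E n × ℝ => Q.c l ((ch x).symm w.1) * w.2 := fun x =>
    (((sm_c Q l).one _ (ch_mem x)).comp contDiff_fst).mul contDiff_snd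
  obtain ⟨La, La0, ha, -⟩ := cmp Q.a sa (Q.ρ + 1) (max A₁ K)
  obtain ⟨Lb, Lb0, hb, -⟩ := cmp Q.b sb (Q.ρ + 1) (max A₂ K)
  obtain ⟨θ, hθ, C, hN⟩ := nho n M (|Q.Λ| + La * (1 + |A₃|) + N * Lb + l * |K|) K hQ.dim
  have α0 : 0 < min θ Q.β := lt_min hθ.1 hQ.β0.1
  have hα : min θ Q.β ∈ Ioo (0 : ℝ) 1 := ⟨α0, (min_le_left _ _).trans_lt hθ.2⟩
  obtain ⟨T, M1, M2, M3⟩ : ∃ T, 2 * |C| ≤ T ∧ 2 * |A₁| ≤ T ∧ 2 * |A₂| ≤ T :=
    ⟨max (2 * |C|) (max (2 * |A₁|) (2 * |A₂|)), le_max_left _ _,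
      le_max_of_le_right (le_max_left _ _), le_max_of_le_right (le_max_right _ _)⟩
  have M0 : 0 ≤ T := le_trans (by positivity) M1
  obtain ⟨Ka, Ka0, -, ka⟩ := cmp Q.a sa (Q.ρ + 1) T
  obtain ⟨Kb, Kb0, -, kb⟩ := cmp Q.b sb (Q.ρ + 1) T
  obtain ⟨Kc, Kc0, -, kc⟩ := cmp (fun e (w : E n × ℝ) => Q.c l (e.symm w.1) * w.2) sc
    (Q.ρ + 1 + 1) T
  obtain ⟨C', hS⟩ := hS n M _ (|Q.Λ| + T + (Ka + ‖P366Z.eu n 0‖) + (N * Kb + Kc)) hα
  refine ⟨_, α0, min_le_right _ _, C', fun σ hσ v sv cv bv ev => ?_⟩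
  have c0 := sv.cont
  have ev' : ∀ x, pr2 (Q.aj (J1 v) x) (D2 v x) =
      σ * Q.B v x (v x) (D1 v x) + (1 - σ) * (Q.c l x * v x) := fun x =>
    (ev x).trans (by rw [mul_assoc]; rfl)
  have p1 := abs_nonneg Q.Λ
  have p2 : 0 ≤ La * (1 + |A₃|) := by positivity
  have p3 : 0 ≤ N * Lb := by positivity
  have p4 : 0 ≤ l * |K| := by positivity
  have h1 : HoS θ C v := by
    refine hN (fun x y => Q.a (ch x) (y, Q.w₁ (ch x) v y, loc (ch x) v y)) v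
      (fun x => (sa x).comp (contDiff_id.prodMk (((n1.sm v c0 x).of_le one_le_oo).prodMk
        (sv.one _ (ch_mem x))))) sv.two bv fun x y hy =>
      ⟨el_mono (hQ.el v c0 x y hy _) (by linarith [le_abs_self Q.Λ]), fun i j k => ?_, ?_⟩
    · rw [rC_D1 (ch_mem x) sv.diff]
      have n0 := norm_nonneg (P366Y.D1 (loc (ch x) v) y)
      rcases le_total ‖px x‖ (Q.ρ + 1) with hx | hx
      · have hw : ‖(Q.w₁ (ch x) v y, loc (ch x) v y)‖ ≤ max A₁ K := norm_prod_le_iff.2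
          ⟨le_max_of_le_left ((n1.ho v c0 x).1 y hy), le_max_of_le_right (bv _)⟩
        refine (chain (hQ.sa x) (n1.sm v c0 x) (sv.lc (ch_mem x)) (abs_nonneg A₃)
          (fun i k => (n3 v c0 x y hy i k).trans (le_abs_self _)) (ha x hx y hy _ _ hw hw).2.1
          i j k).trans ?_
        have q1 : 0 ≤ La * (|A₃| * ‖P366Y.D1 (loc (ch x) v) y‖) := by positivity
        have q2 : 0 ≤ (|Q.Λ| + N * Lb + l * |K|) * (1 + ‖P366Y.D1 (loc (ch x) v) y‖) := by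
          positivity
        linarith
      · have e : (fun z => Q.a (ch x) (z, Q.w₁ (ch x) v z, loc (ch x) v z) i j) =ᶠ[𝓝 y]
            fun _ => P366Z.eu n 0 i j := by
          filter_upwards [isOpen_ball.mem_nhds hy] with z hz
          rw [hQ.a_far c0 hx hz]
        rw [P366Z.pd_congr e, P366Z.pd_const, abs_zero]
        positivity
    · have hB : ‖Q.b (ch x) (y, Q.w₂ (ch x) v y, loc (ch x) v y)‖ ≤ Lb := by
        rcases le_total ‖px x‖ (Q.ρ + 1) with hx | hx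
        · have hw : ‖(Q.w₂ (ch x) v y, loc (ch x) v y)‖ ≤ max A₂ K := norm_prod_le_iff.2
            ⟨le_max_of_le_left ((n2.ho v c0 x).1 y hy), le_max_of_le_right (bv _)⟩
          exact (hb x hx y hy _ _ hw hw).1
        · rw [hQ.b_far c0 hx hy, norm_zero]
          exact Lb0
      have r := J.rc_mem Q.ρ ((ch x).symm y)
      have q1 : |Q.c l ((ch x).symm y) * v ((ch x).symm y)| ≤ l * |K| := by
        rw [abs_mul, Pb.c, abs_of_nonneg (mul_nonneg hl r.1)]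
        exact mul_le_mul (mul_le_of_le_one_right hl r.2) ((bv _).trans (le_abs_self K))
          (abs_nonneg _) hl
      have e1 : pr2 (Q.a (ch x) (y, Q.w₁ (ch x) v y, loc (ch x) v y)) (rep (ch x) (D2 v) y) =
          σ * qd (Q.b (ch x) (y, Q.w₂ (ch x) v y, loc (ch x) v y)) (rC (ch x) (D1 v) y) +
            (1 - σ) * (Q.c l ((ch x).symm y) * v ((ch x).symm y)) := by
        refine ((congrArg (pr2 · _) (hQ.aj_rep (j := J1 v) c0 x y)).symm.trans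
          ((pr2_rep (ch_mem x) _ _ y).trans (ev _))).trans ?_
        rw [hQ.bj_rep (j := J1 v) c0, mul_assoc]
        rfl
      beta_reduce
      rw [e1]
      generalize rC (ch x) (D1 v) y = p
      have e0 := e2_nonneg p
      have q2 : N * ‖Q.b (ch x) (y, Q.w₂ (ch x) v y, loc (ch x) v y)‖ * (1 + e2 p) ≤
          N * Lb * (1 + e2 p) := by gcongr
      have q3 : 0 ≤ (|Q.Λ| + La * (1 + |A₃|)) * (1 + e2 p) := by positivity
      have q4 : 0 ≤ l * |K| * e2 p := by positivity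
      linarith [cvx hσ (hN' ▸ qd_le (Q.b (ch x) (y, Q.w₂ (ch x) v y, loc (ch x) v y)) p) q1]
  have h2 : HoS (min θ Q.β) T v := fun x => (low (h1 x) α0.le (min_le_left _ _)).mono M1
  have ga := ka _ hα _ (P366Z.eu n 0) (fun x => ((low (n1.ho v c0 x) α0.le
    (min_le_right _ _)).mono M2).prod (h2 x)) fun x hx y hy => hQ.a_far c0 hx hy _
  have gb := kb _ hα _ 0 (fun x => ((low (n2.ho v c0 x) α0.le (min_le_right _ _)).mono M3).prod
    (h2 x)) fun x hx y hy => hQ.b_far c0 hx hy _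
  have gc := kc _ hα _ 0 h2 fun x hx y hy => by simp only [hQ.c_far l hx hy, zero_mul]
  rw [norm_zero, add_zero] at gb gc
  have p5 : 0 ≤ Ka + ‖P366Z.eu n 0‖ := by positivity
  have p6 : 0 ≤ N * Kb := by positivity
  have gb1 : ∀ x, ‖Q.b (ch x) (pt x, Q.w₂ (ch x) v (pt x), v x)‖ ≤ Kb := fun x => by
    simpa only [loc_pt] using (gb x).1 _ (pt_mem x)
  have h3 := hS (Q.aj (J1 v)) (fun x q => σ * Q.B v x (v x) q + (1 - σ) * (Q.c l x * v x)) v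
    (fun x => el_mono (hQ.el_pt c0 x _) (by linarith [le_abs_self Q.Λ]))
    (fun x => ((ga x).mono (by linarith)).congr fun y _ => hQ.aj_rep (j := J1 v) c0 x y) cv
    (h2.mono (by linarith)) (fun x q => ?_) (fun x y hy z hz q => ?_) (fun x q q' => ?_) ev'
  · exact h3.jet
  · have e0 := e2_nonneg q
    have q2 : N * ‖Q.b (ch x) (pt x, Q.w₂ (ch x) v (pt x), v x)‖ * (1 + e2 q) ≤
        N * Kb * (1 + e2 q) := by
      gcongr
      exact gb1 x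
    have q3 : 0 ≤ (|Q.Λ| + T + (Ka + ‖P366Z.eu n 0‖)) * (1 + e2 q) := by positivity
    have q4 : 0 ≤ Kc * e2 q := by positivity
    have q5 : |Q.c l x * v x| ≤ Kc := by
      simpa only [loc_pt, symm_pt, Real.norm_eq_abs] using (gc x).1 _ (pt_mem x)
    rw [Pb.B]
    linarith [cvx hσ (hN' ▸ qd_le (Q.b (ch x) (pt x, Q.w₂ (ch x) v (pt x), v x)) q) q5]
  · have e0 := e2_nonneg q
    have d0 : 0 ≤ ‖y - z‖ ^ min θ Q.β := by positivity
    have q1 := cvx hσ (hN' ▸ qd_le (Q.b (ch x) (y, Q.w₂ (ch x) v y, loc (ch x) v y) -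
      Q.b (ch x) (z, Q.w₂ (ch x) v z, loc (ch x) v z)) q) ((gc x).2 y hy z hz)
    have q2 : N * ‖Q.b (ch x) (y, Q.w₂ (ch x) v y, loc (ch x) v y) -
        Q.b (ch x) (z, Q.w₂ (ch x) v z, loc (ch x) v z)‖ * (1 + e2 q) ≤
        N * (Kb * ‖y - z‖ ^ min θ Q.β) * (1 + e2 q) := by
      gcongr
      exact (gb x).2 y hy z hz
    have q3 : 0 ≤ (|Q.Λ| + T + (Ka + ‖P366Z.eu n 0‖)) * (1 + e2 q) * ‖y - z‖ ^ min θ Q.β := by
      positivity
    have q4 : 0 ≤ Kc * e2 q * ‖y - z‖ ^ min θ Q.β := by positivity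
    rw [← qd_sub] at q1
    rw [hQ.cb v c0, hQ.cb v c0]
    refine le_of_eq_of_le (congrArg _ (by simp only [loc]; ring)) (q1.trans ?_)
    linarith
  · have q1 := cvx hσ (hN' ▸ qd_lip (Q.b (ch x) (pt x, Q.w₂ (ch x) v (pt x), v x)) q q')
      (abs_zero (α := ℝ)).le
    have q2 : N * ‖Q.b (ch x) (pt x, Q.w₂ (ch x) v (pt x), v x)‖ *
        ((1 + ‖q‖ + ‖q'‖) * ‖q - q'‖) ≤ N * Kb * ((1 + ‖q‖ + ‖q'‖) * ‖q - q'‖) := by
      gcongr
      exact gb1 x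
    have q3 : 0 ≤ (|Q.Λ| + T + (Ka + ‖P366Z.eu n 0‖) + Kc) * ((1 + ‖q‖ + ‖q'‖) * ‖q - q'‖) := by
      positivity
    refine le_of_eq_of_le (congrArg _ (by simp only [Pb.B]; ring)) (q1.trans ?_)
    linarith

end Vale.Agent.P366M.Y.F
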