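import Vale.Agent.P366Q.F.Nq2
import Vale.Agent.P366Q.F.Chg
import Vale.Agent.P366Q.F.Ell

/-!
# P366Q, block F: the existence of the conformal factor (assembly)
-/

open MeasureTheory Metric Filter Topology Set
open scoped ContDiff ENNReal
open Vale.Agent.P366 hiding E
open Vale.Agent.P366.Stmt Vale.Agent.P366Z Vale.Agent.P366Y
open Vale.Agent.P366Y.F (qd Tr La Wb)
open Vale.Agent.P366Y.F.UexH (sm_qd qd_smul tr_pos tr_eq)

noncomputable section

namespace Vale.Agent.P366M.Y.F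

section

variable {n : ℕ} {M : Type} [Mfe n M] {W W' : Type} [NormedAddCommGroup W] [NormedAddCommGroup W']
  {ρ : ℝ}

theorem ct_prod {w : (M → ℝ) → M → W} {w' : (M → ℝ) → M → W'} (h : Ct ρ w) (h' : Ct ρ w') :
    Ct ρ fun f x => (w f x, w' f x) := fun e he =>
  let ⟨d, d0, hd⟩ := h e he
  let ⟨d', d0', hd'⟩ := h' e he
  ⟨min d d', lt_min d0 d0', fun f f' hf hf' k x =>
    max_le (hd f f' hf hf' (fun y hy => (k y hy).trans (min_le_left _ _)) x)
      (hd' f f' hf hf' (fun y hy => (k y hy).trans (min_le_right _ _)) x)⟩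

/-- the function `u` of the unknown `v` -/
abbrev uu (X : Dat n M) (v : M → ℝ) : M → ℝ := fun y => 1 + v y / X.U y

variable {X : Dat n M}

theorem uu_cont (hX : X.Ok) {v : M → ℝ} (hv : Continuous v) : Continuous (uu X v) :=
  continuous_const.add (hv.div hX.smU.cont fun x => (J.U0 hX x).ne')

theorem uu_sm (hX : X.Ok) {v : M → ℝ} (hv : Smooth v) : Smooth (uu X v) :=
  cd_const.add (CD.div hv hX.smU fun x => (J.U0 hX x).ne')

theorem uu_eq (hX : X.Ok) (v : M → ℝ) : (fun y => X.U y * (uu X v y - 1)) = v :=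
  funext fun y => by rw [add_sub_cancel_left, mul_div_cancel₀ _ (J.U0 hX y).ne']

theorem uu_lim (hX : X.Ok) {v : M → ℝ} (hv : Tendsto v (cocompact _) (𝓝 0)) :
    Tendsto (uu X v) (cocompact _) (𝓝 1) := by
  have : Tendsto (fun y => v y / X.U y) (cocompact _) (𝓝 0) := by
    refine squeeze_zero_norm (a := fun y => 2 * ‖v y‖) (fun y => ?_)
      (by simpa using hv.norm.const_mul 2)
    rw [norm_div, Real.norm_of_nonneg (J.U0 hX y).le, div_le_iff₀ (J.U0 hX y)]
    nlinarith [(hX.Ub y).1, norm_nonneg (v y)]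
  simpa using this.const_add 1

theorem ct_uu (hX : X.Ok) {w : (M → ℝ) → M → W} (h : Ct X.ρ w) :
    Ct (X.ρ + 2) fun f => w (uu X f) := fun e he =>
  let ⟨d, d0, hd⟩ := h e he
  ⟨d / 2, half_pos d0, fun f f' hf hf' k => hd _ _ (uu_cont hX hf) (uu_cont hX hf') fun y hy => by
    rw [add_sub_add_left_eq_sub, ← sub_div, abs_div, abs_of_pos (J.U0 hX y),
      div_le_iff₀ (J.U0 hX y)]
    nlinarith [(hX.Ub y).1, k y (by linarith)]⟩

theorem sm_rC {f : M → ℝ} (hf : Smooth f) (x : M) : ContDiff ℝ ∞ (rC (ch x) (D1 f)) :=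
  contDiff_pi.2 fun i => hf.cc_pd _ (ch_mem x) i

end

/-- **NQE** -/
theorem nqe_of (hR : REGQ) (hE : QE) (h2 : NQ2) : NQE := by
  intro n M _ W _ _ _ Q hQ ⟨l₁, h⟩
  obtain ⟨l₀, hl⟩ := hE n M Q.Λ Q.ρ hQ.dim hQ.ρ0
  obtain ⟨A₁, n1⟩ := hQ.n1
  obtain ⟨A₂, n2⟩ := hQ.n2
  obtain ⟨l, a0, a1, a2⟩ : ∃ l : ℝ, 0 ≤ l ∧ l₀ ≤ l ∧ l₁ ≤ l :=
    ⟨max 0 (max l₀ l₁), le_max_left _ _, le_max_of_le_right (le_max_left _ _),
      le_max_of_le_right (le_max_right _ _)⟩
  obtain ⟨K, hK⟩ := h l a2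
  obtain ⟨α, α0, α1, N, hM⟩ := h2 n M W Q hQ l K a0
  have hα : α ∈ Ioo (0 : ℝ) 1 := ⟨α0, α1.trans_lt hQ.β0.2⟩
  have reg : ∀ σ v, (∃ A, C2H α A v) → Q.Eqn l σ v → Smooth v := by
    rintro σ v ⟨A, hv⟩ e
    have c := hv.1.continuous
    refine hR n M α A v (fun x w => Q.A v x w.1)
      (fun x w => σ * Q.B v x w.1 w.2 + (1 - σ) * Q.c l x * w.1) hα hv (fun x => ?_) (fun x => ?_)
      (fun x => ⟨_, hQ.el_pt c x _⟩) e
    · have s1 := n1.sm v c x
      rw [show jU (ch x) (fun x w => Q.A v x w.1) = fun w : E n × ℝ × Vc n =>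
        Q.a (ch x) (w.1, Q.w₁ (ch x) v w.1, w.2.1) from funext fun w => hQ.ca v c x w.1 w.2.1]
      exact (hQ.sa x).comp (by fun_prop)
    · have s2 := n2.sm v c x
      have s3 := sm_c Q l _ (ch_mem x)
      have s4 := hQ.sb x
      rw [show jS (ch x) (fun x w => σ * Q.B v x w.1 w.2 + (1 - σ) * Q.c l x * w.1) =
        fun w : E n × ℝ × Vc n => σ * qd (Q.b (ch x) (w.1, Q.w₂ (ch x) v w.1, w.2.1)) w.2.2 +
          (1 - σ) * loc (ch x) (Q.c l) w.1 * w.2.1 from funext fun w => by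
        rw [← hQ.cb v c]
        rfl]
      exact ContDiff.add (contDiff_const.mul (sm_qd.comp (f := fun w : E n × ℝ × Vc n =>
        (Q.b (ch x) (w.1, Q.w₂ (ch x) v w.1, w.2.1), w.2.2)) (by fun_prop))) (by fun_prop)
  obtain ⟨v, v1, v2, v3⟩ := hl l a1 α hα _ _ _ (nq1 n M W Q hQ l α a0 α0 α1
    ⟨N, fun σ hσ v hv k e =>
      hM σ hσ v (reg σ v hv e) hv (hK σ hσ v (reg σ v hv e) k e) e⟩)
  have e : Q.Eqn l 1 v := fun x => by rw [v3 x]; ring
  exact ⟨l, v, reg 1 v v1 e, v2, e⟩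

/-- **UEX** -/
theorem uex_of' (hN : NQE) : UEX := by
  intro n M _ X φ m θ ft lm β A a b hX hU
  have hg := J.mg hX
  have U0 := J.U0 hX
  have ρ1 := hX.flat.R
  have ρ0 := hX.flat.pos
  have γ0 : 0 < gam n := by linarith [one_lt_gam hX.dim]
  have hJ := jet n M m X.g X.U φ θ hg hX.smU U0 hU.smφ hU.smθ
  choose! B sB hB using fun e he => (hJ e he).2
  obtain ⟨⟨Λ, el⟩, fa⟩ := ell n M X φ A hX hU.wb
  obtain ⟨G, G0, hG⟩ := cg_bd M
  have φ0 : ∀ z, 0 < φ z := fun z =>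
    let ⟨_, c0, _, h⟩ := hU.wb
    c0.trans_le (h z).1
  have smf := hU.n2.sm
  have hC := fun (h : M → ℝ) (hh : Continuous h) =>
    chg n M m X.g X.U φ θ (ft h) (lm h) hg hX.smU U0 hU.smφ φ0 (smf h hh)
  have far := fun (h : M → ℝ) (hh : Continuous h) L u hu =>
    farl n M X φ (ft h) L u hX hu (hU.f0 h hh)
  have fa' : ∀ h, Continuous h → ∀ x z, X.ρ ≤ ‖px x‖ →
      av X.g X.U φ (ch x) (pt x, D1 (ft h) x, z) = eu n x := fun h hh x z hx => by
    rw [(far h hh 0 (fun _ => 1) cd_const x hx).2.1]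
    exact fa x z hx
  let Q : Pb n M (Vc n × Mx n × (Fin m → ℝ)) :=
    ⟨X.ρ + 2, β, Λ, fun e h => rC e (D1 (ft (uu X h))),
      fun e h y => (rC e (D1 (ft (uu X h))) y, rep e (D2 (ft (uu X h))) y, lm (uu X h) (e.symm y)),
      av X.g X.U φ, fun e w => rc (X.ρ + 1) (e.symm w.1) • B e w⟩
  have QA : ∀ h x z, Q.A h x z = av X.g X.U φ (ch x) (pt x, D1 (ft (uu X h)) x, z) :=
    fun h x z => by simp only [Pb.A, Q, rC_pt]
  have QB : ∀ h x z q, Q.B h x z q = rc (X.ρ + 1) x * bv X.g X.U φ θ (ch x)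
      (pt x, (D1 (ft (uu X h)) x, D2 (ft (uu X h)) x, lm (uu X h) x), z) q := fun h x z q => by
    simp only [Pb.B, Q, rC_pt, rep_pt, symm_pt, qd_smul, hB _ (ch_mem x)]
  have hQ : Q.Ok :=
    { dim := hX.dim
      ρ0 := by show _ ≤ X.ρ + 2; linarith
      β0 := hU.β0
      n1 := ⟨A, fun h hh => sm_rC (smf _ (uu_cont hX hh)),
        fun h hh => (hU.n2.ho _ (uu_cont hX hh)).2.2.1,
        by simpa only [Q, rC_pt] using ct_uu hX hU.n2.c1⟩
      n2 := ⟨A, fun h hh x => (sm_rC (smf _ (uu_cont hX hh)) x).prodMk ((contDiff_pi.2 fun i =>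
          contDiff_pi.2 fun j => bg_met.sm_hess (smf _ (uu_cont hX hh)) _ (ch_mem x) i j).prodMk
            (hU.n3.sm _ (uu_cont hX hh) _ (ch_mem x))),
        fun h hh x => ((hU.n2.ho _ (uu_cont hX hh)).2.2.1 x).prod
          (((hU.n2.ho _ (uu_cont hX hh)).2.2.2 x).prod (hU.n3.ho _ (uu_cont hX hh) x)),
        by simpa only [Q, rC_pt, rep_pt, symm_pt] using
          ct_uu hX (ct_prod hU.n2.c1 (ct_prod hU.n2.c2 hU.n3.ct))⟩
      lip := ⟨A + G * A, fun h hh x y hy i k => by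
        have s := smf _ (uu_cont hX hh)
        have c := hU.n2.ho _ (uu_cont hX hh)
        have e := d2_rep (ch_mem x) s.two y
        have e1 : Stmt.pd k (fun z => rC (ch x) (D1 (ft (uu X h))) z i) y =
            P366Y.D2 (loc (ch x) (ft (uu X h))) y k i := by
          rw [rC_D1 (ch_mem x) s.diff]
          rfl
        refine (congrArg _ e1).trans_le ((abs_le_norm2 _ k i).trans ?_)
        rw [e]
        exact (norm_add_le _ _).trans (add_le_add ((c.2.2.2 x).1 y hy) ((hG x y hy _).trans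
          (mul_le_mul_of_nonneg_left ((c.2.2.1 x).1 y hy) G0)))⟩
      sa := fun x => (hJ _ (ch_mem x)).1
      sb := fun x => ((J.sm_rc (X.ρ + 1) _ (ch_mem x)).comp contDiff_fst).smul (sB _ (ch_mem x))
      ca := fun h hh x y z => by
        simp only [QA]
        exact ((hC _ (uu_cont hX hh)).2 _ (ch_mem x) y z).1
      cb := fun h hh x y z q => by
        rw [QB, ((hC _ (uu_cont hX hh)).2 _ (ch_mem x) y z).2, ← hB _ (ch_mem x), ← qd_smul]
      el := fun h hh x y hy z => el x y hy _ z (((hU.n2.ho _ (uu_cont hX hh)).2.2.1 x).1 y hy)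
      fa := fun h hh x z hx => (QA h x z).trans (fa' _ (uu_cont hX hh) x z
        (by linarith [show X.ρ + 2 ≤ ‖px x‖ from hx]))
      fb := fun h hh x y z hx => by
        show rc (X.ρ + 1) ((ch x).symm y) • _ = _
        rw [J.rc_zero (by linarith) (by linarith [show X.ρ + 2 ≤ _ from hx]), zero_smul] }
  have k0 : ∀ x, 0 < ka n X.U x * X.U x := fun x => mul_pos (div_pos
    (Real.rpow_pos_of_pos (U0 x) _) (mul_pos four_pos γ0)) (U0 x)
  have key : ∀ v, Smooth v → ∀ x, pr2 (Q.aj (J1 v) x) (D2 v x) - Q.bj (J1 v) x =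
      ka n X.U x * X.U x * nu X.g φ (ft (uu X v)) (fun y => La θ (lm (uu X v) y) (uu X v y))
        (uu X v) x := fun v hv x => by
    have cu := (uu_sm hX hv).cont
    have e := (hC _ cu).1 v hv x
    rw [show Q.bj (J1 v) x = _ from QB v x (v x) (D1 v x),
      show Q.aj (J1 v) x = _ from QA v x (v x), ← e]
    rcases le_total ‖px x‖ (X.ρ + 1) with hx | hx
    · rw [J.rc_one (by linarith) hx, one_mul]
    · have e2 := (far _ cu (fun y => La θ (lm (uu X v) y) (uu X v y)) _ (uu_sm hX hv) x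
        (by linarith)).2.2.2.2.2
      rw [hU.far _ cu x _ hx, zero_mul, mul_zero, add_zero, uu_eq hX, ← e,
        fa' _ cu x _ (by linarith), sub_eq_self] at e2
      rw [e2, mul_zero]
  obtain ⟨l₁, hl⟩ := minp n M X.U X.ρ (X.ρ + 2) Λ hX.dim ρ1 (by linarith) hX.smU hX.Ub fun x hx =>
    (far 0 continuous_const 0 (fun _ => 1) cd_const x hx).1
  have bd : ∀ l ≥ l₁, ∀ σ ∈ Icc (0 : ℝ) 1, ∀ v, Smooth v → Tendsto v (cocompact _) (𝓝 0) →
      Q.Eqn l σ v → ∀ x, a ≤ uu X v x ∧ uu X v x ≤ b := by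
    intro l hl₁ σ hσ v hv lim e
    have su := uu_sm hX hv
    have cu := su.cont
    have mb : Met (gb X.g (fun y => φ (uu X v y)) (ft (uu X v))) :=
      met_gb hg (hU.smφ.compM su) (smf _ cu)
    have e0 : ∀ x, σ * (ka n X.U x * X.U x * nu X.g φ (ft (uu X v))
        (fun y => La θ (lm (uu X v) y) (uu X v y)) (uu X v) x) +
        (1 - σ) * (pr2 (Q.aj (J1 v) x) (D2 v x) - l * rc (X.ρ + 2) x * v x) = 0 := fun x => by
      rw [← key v hv x]
      have := e x
      simp only [Pb.c] at this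
      linear_combination this
    have el' : ∀ x, El Λ (Q.aj (J1 v) x) := fun x => hQ.el_pt hv.cont x _
    have fa'' : ∀ x, X.ρ ≤ ‖px x‖ → Q.aj (J1 v) x = eu n x := fun x hx =>
      (QA v x _).trans (fa' _ cu x _ hx)
    have ev := congrFun (uu_eq hX v)
    have lo := hl l hl₁ σ hσ _ _ (uu X v) a hU.ab.2.1 el' fa'' su (uu_lim hX lim)
      (fun x => by rw [uu_eq hX, ev x]; exact e0 x) (fun x hx h1 h2 => by
        have p := mb.lap_nonneg (su.c2 x) h1
        have p1 := mul_pos (sub_pos.2 (hU.lo _ su x hx h1 h2)) (tr_pos (uu X v x))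
        have p2 := mul_nonneg γ0.le p
        refine mul_pos (k0 x) ?_
        unfold nu
        linarith) fun x hx h2 => by
        rw [(far _ cu _ _ su x hx).2.2.2.2.2]
        exact le_add_of_nonneg_right (mul_nonneg (k0 x).le
          (mul_nonneg (hU.lo' _ cu x _ hx h2) (tr_pos _).le))
    have en : (fun y => X.U y * (2 - uu X v y - 1)) = fun y => -v y :=
      funext fun y => by rw [← ev y]; ring
    have hi := hl l hl₁ σ hσ _ (fun x => -(ka n X.U x * X.U x * nu X.g φ (ft (uu X v))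
      (fun y => La θ (lm (uu X v) y) (uu X v y)) (uu X v) x)) (fun y => 2 - uu X v y) (2 - b)
      (by linarith [hU.ab.2.2]) el' fa'' (CD.sub cd_const su)
      (by simpa [show (2 : ℝ) - 1 = 1 by norm_num] using (uu_lim hX lim).const_sub 2)
      (fun x => by
        rw [en, d2_neg, congrFun en x]
        linear_combination -e0 x) (fun x hx h1 h2 => by
        have h3 : IsLocalMax (uu X v) x := h1.mono fun y k => by linarith
        have p := mb.lap_nonpos (su.c2 x) h3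
        have p1 := mul_pos (sub_pos.2 (hU.hi _ su x hx h3 (by linarith))) (tr_pos (uu X v x))
        have p2 := mul_nonpos_of_nonneg_of_nonpos γ0.le p
        refine neg_pos.2 (mul_neg_of_pos_of_neg (k0 x) ?_)
        unfold nu
        linarith) fun x hx h2 => by
        rw [(far _ cu _ _ su x hx).2.2.2.2.2, en, d2_neg, uu_eq hX]
        have := mul_nonneg (k0 x).le (mul_nonneg (neg_nonneg.2
          (hU.hi' _ cu x (uu X v x) hx (by linarith))) (tr_pos (uu X v x)).le)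
        linarith
    exact fun x => ⟨lo x, by linarith [hi x]⟩
  obtain ⟨l, v, v1, v2, v3⟩ := hN n M _ Q hQ ⟨l₁, fun l hl₁ => ⟨2 * b, fun σ hσ v hv lim e x => by
    obtain ⟨h1, h2⟩ := bd l hl₁ σ hσ v hv lim e x
    obtain ⟨h3, h4, h5⟩ := hU.ab
    rw [← congrFun (uu_eq hX v) x, abs_mul, abs_of_pos (U0 x)]
    exact mul_le_mul (by linarith [(hX.Ub x).2]) (abs_le.2 ⟨by linarith, by linarith⟩)
      (abs_nonneg _) two_pos.le⟩⟩
  have v4 : Q.Eqn l₁ 1 v := fun x => by rw [v3 x]; ring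
  have v5 := bd l₁ le_rfl 1 ⟨zero_le_one, le_rfl⟩ v v1 v2 v4
  refine ⟨uu X v, uu_sm hX v1, uu_lim hX v2, v5, fun x => ?_⟩
  have e := key v v1 x
  rw [v3 x, show ∀ s t u : ℝ, 1 * s + (1 - 1) * t * u - s = 0 from fun _ _ _ => by ring] at e
  have e1 := (mul_eq_zero.1 e.symm).resolve_left (k0 x).ne'
  rw [nu, tr_eq (hU.ab.1.trans (v5 x).1)] at e1
  rw [cl]
  linear_combination -e1

/-- **UEX** from the elliptic tools -/
theorem uex_of (hR : REGQ) (hE : QE) (hS : NATS) : UEX := uex_of' (nqe_of hR hE (nq2_of hS))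

end Vale.Agent.P366M.Y.F
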